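import Mathlib

/-!
Parameters for which a map into `E` and a generic combination of finitely many complex functions
have a common value: they form a null set if all the functions are `o(|w - z| ^ (n / (n + 2)))`.
-/

namespace Vale.Agent.P228.Frac

open MeasureTheory Metric Set Function Filter Asymptotics
open scoped Topology Real ENNReal

noncomputable section

lemma volume_strip {q : ℕ} (s : Fin (q + 1) → ℂ) (i : Fin (q + 1)) (hi : s i ≠ 0) (k D : ℝ) :
    volume {v : Fin (q + 1) → ℂ | ‖v‖ ≤ k ∧ ‖∑ j, v j * s j‖ ≤ D}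
      ≤ ENNReal.ofReal (D / ‖s i‖) ^ 2 * NNReal.pi * volume (closedBall (0 : Fin q → ℂ) k) := by
  set S := {v : Fin (q + 1) → ℂ | ‖v‖ ≤ k ∧ ‖∑ j, v j * s j‖ ≤ D}
  have hS : MeasurableSet S := by
    refine (IsClosed.inter (isClosed_le continuous_norm continuous_const) ?_).measurableSet
    exact isClosed_le (by fun_prop : Continuous fun v : Fin (q + 1) → ℂ => ‖∑ j, v j * s j‖)
      continuous_const
  have he := volume_preserving_piFinSuccAbove (fun _ : Fin (q + 1) => ℂ) i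
  rw [← (he.symm _).measure_preimage hS.nullMeasurableSet, Measure.volume_eq_prod,
    Measure.prod_apply_symm ((MeasurableEquiv.measurable _) hS)]
  refine (lintegral_mono (g := (closedBall (0 : Fin q → ℂ) k).indicator fun _ =>
    ENNReal.ofReal (D / ‖s i‖) ^ 2 * NNReal.pi) fun y => ?_).trans
      (lintegral_indicator_const isClosed_closedBall.measurableSet _).le
  by_cases hy : y ∈ closedBall (0 : Fin q → ℂ) k
  · rw [indicator_of_mem hy]
    refine (measure_mono (t := closedBall (-(∑ j, y j * s (i.succAbove j)) / s i) (D / ‖s i‖))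
      fun a ha => ?_).trans (Complex.volume_closedBall _ _).le
    have h := ha.2
    simp only [MeasurableEquiv.piFinSuccAbove_symm_apply, Fin.insertNthEquiv_apply,
      Fin.sum_univ_succAbove _ i, Fin.insertNth_apply_same, Fin.insertNth_apply_succAbove] at h
    rw [mem_closedBall, dist_eq_norm, le_div_iff₀ (norm_pos_iff.2 hi), ← norm_mul, sub_mul,
      div_mul_cancel₀ _ hi, sub_neg_eq_add]
    exact h
  · rw [indicator_of_notMem hy]
    refine (measure_mono_null (fun a ha => ?_) measure_empty).le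
    refine hy (mem_closedBall_zero_iff.2 ((pi_norm_le_iff_of_nonneg
      ((norm_nonneg _).trans ha.1)).2 fun j => ?_))
    have h := (pi_norm_le_iff_of_nonneg ((norm_nonneg _).trans ha.1)).1 ha.1 (i.succAbove j)
    simpa using h

variable {E : Type*} [NormedAddCommGroup E] [NormedSpace ℝ E] [FiniteDimensional ℝ E]
  [MeasurableSpace E] [BorelSpace E]

/-- the critical exponent -/
def critExp (E : Type*) [NormedAddCommGroup E] [NormedSpace ℝ E] : ℝ :=
  (Module.finrank ℝ E : ℝ) / ((Module.finrank ℝ E : ℝ) + 2)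

omit [FiniteDimensional ℝ E] [MeasurableSpace E] [BorelSpace E] in
lemma critExp_nonneg : 0 ≤ critExp E := by unfold critExp; positivity

/-- `F` is `o(|w - z| ^ (n / (n + 2)))` at `z` -/
def SmallOsc {F : Type*} [NormedAddCommGroup F] (g : E → F) (z : E) : Prop :=
  (fun w => g w - g z) =o[𝓝 z] fun w => ‖w - z‖ ^ critExp E

omit [FiniteDimensional ℝ E] [MeasurableSpace E] [BorelSpace E] in
lemma SmallOsc.exists_le {F : Type*} [NormedAddCommGroup F] {g : E → F} {z : E}
    (h : SmallOsc g z) {ε : ℝ} (hε : 0 < ε) :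
    ∀ᶠ r in 𝓝[>] (0 : ℝ), ∀ w ∈ closedBall z r, ‖g w - g z‖ ≤ ε * r ^ critExp E := by
  obtain ⟨δ, hδ, hb⟩ := Metric.eventually_nhds_iff.1 (h.def hε)
  filter_upwards [self_mem_nhdsWithin, nhdsWithin_le_nhds (gt_mem_nhds hδ)] with r hr hrδ w hw
  refine (hb ((mem_closedBall.1 hw).trans_lt hrδ)).trans ?_
  rw [Real.norm_eq_abs, abs_of_nonneg (Real.rpow_nonneg (norm_nonneg _) _)]
  gcongr
  · exact critExp_nonneg
  · rw [← dist_eq_norm]; exact mem_closedBall.1 hw

/-- parameters `(y, v)` for which `A - y` and `∑ v j * s j` have a common zero in `X` -/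
def badSet {q : ℕ} (A : E → E) (s : Fin q → E → ℂ) (X : Set E) : Set (E × (Fin q → ℂ)) :=
  {P | ∃ z ∈ X, A z = P.1 ∧ ∑ j, P.2 j * s j z = 0}

theorem badSet_null (μ : Measure E) [μ.IsAddHaarMeasure] {q : ℕ} {A : E → E} {s : Fin q → E → ℂ}
    {X : Set E} (hA : ∀ z ∈ X, SmallOsc A z) (hs : ∀ z ∈ X, ∀ j, SmallOsc (s j) z)
    (hne : ∀ z ∈ X, ∃ i, s i z ≠ 0) : (μ.prod volume) (badSet A s X) = 0 := by
  rcases q with - | q
  · have : X = ∅ := eq_empty_of_forall_notMem fun z hz => (hne z hz).choose.elim0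
    simp [badSet, this]
  set a := critExp E
  set n := Module.finrank ℝ E
  let Y : Fin (q + 1) → ℕ → Set E := fun i k =>
    {z ∈ X | ((k : ℝ) + 1)⁻¹ ≤ ‖s i z‖ ∧ ‖z‖ ≤ k}
  let B : Fin (q + 1) → ℕ → Set (E × (Fin (q + 1) → ℂ)) := fun i k =>
    {P | ‖P.2‖ ≤ k} ∩ badSet A s (Y i k)
  have hcov : badSet A s X ⊆ ⋃ (i) (k), B i k := by
    rintro P ⟨z, hz, h1, h2⟩
    obtain ⟨i, hi⟩ := hne z hz
    obtain ⟨k, hk⟩ := exists_nat_gt (max ‖P.2‖ (max ‖z‖ ‖s i z‖⁻¹))
    have hk' := max_lt_iff.1 hk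
    have hk'' := max_lt_iff.1 hk'.2
    refine mem_iUnion₂.2 ⟨i, k, hk'.1.le, z, ⟨hz, ?_, hk''.1.le⟩, h1, h2⟩
    rw [inv_le_comm₀ (by positivity) (norm_pos_iff.2 hi)]
    linarith [hk''.2]
  refine measure_mono_null hcov (measure_iUnion_null fun i => measure_iUnion_null fun k => ?_)
  set c₁ := μ (closedBall (0 : E) 1)
  have hc₁ : c₁ ≠ 0 := (measure_closedBall_pos μ 0 one_pos).ne'
  have hc₁' : c₁ ≠ ⊤ := measure_closedBall_lt_top.ne
  set C : ℝ := ((q + 1 : ℕ) : ℝ) * k * ((k : ℝ) + 1)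
  set C' : ℝ≥0∞ := ENNReal.ofReal C ^ 2 * NNReal.pi * volume (closedBall (0 : Fin q → ℂ) k)
  have hC' : C' ≠ ⊤ := ENNReal.mul_ne_top (ENNReal.mul_ne_top (ENNReal.pow_ne_top
    ENNReal.ofReal_ne_top) ENNReal.coe_ne_top) measure_closedBall_lt_top.ne
  have hY : μ (Y i k) ≠ ⊤ := ((measure_mono fun z hz =>
    mem_closedBall_zero_iff.2 hz.2.2).trans_lt (measure_closedBall_lt_top (x := (0 : E)) (r := k))).ne
  have key : ∀ ε : ℝ, 0 < ε →
      (μ.prod volume) (B i k) ≤ C' * ENNReal.ofReal ε ^ (n + 2) * (μ (Y i k) + 1) := by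
    intro ε hε
    obtain ⟨t, r, htc, hts, hr, hcov, hsum⟩ :=
      Besicovitch.exists_closedBall_covering_tsum_measure_le μ one_ne_zero
        (fun z => {r : ℝ | 0 < r ∧ (∀ w ∈ closedBall z r, ‖A w - A z‖ ≤ ε * r ^ a) ∧
          ∀ j, ∀ w ∈ closedBall z r, ‖s j w - s j z‖ ≤ ε * r ^ a})
        (Y i k) (fun z hz δ hδ => by
          obtain ⟨r, ⟨h1, h2⟩, h3, h4⟩ := ((((hA z hz.1).exists_le hε).and
            (eventually_all.2 fun j => (hs z hz.1 j).exists_le hε)).and
            ((eventually_mem_nhdsWithin (a := (0 : ℝ)) (s := Ioi 0)).and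
              (nhdsWithin_le_nhds (gt_mem_nhds hδ)))).exists
          exact ⟨r, ⟨h3, h1, h2⟩, h3, h4⟩)
    have hsub : B i k ⊆ ⋃ z ∈ t, closedBall (A z) (ε * r z ^ a) ×ˢ
        {v : Fin (q + 1) → ℂ | ‖v‖ ≤ k ∧
          ‖∑ j, v j * s j z‖ ≤ ((q + 1 : ℕ) : ℝ) * k * (ε * r z ^ a)} := by
      rintro P ⟨hPk, z, hz, h1, h2⟩
      obtain ⟨c, hc, hzc⟩ := mem_iUnion₂.1 (hcov hz)
      obtain ⟨-, hrA, hrs⟩ := hr c hc
      refine mem_biUnion hc ⟨mem_closedBall.2 ?_, hPk, ?_⟩
      · rw [← h1, dist_eq_norm]; exact hrA z hzc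
      · have e : ∑ j, P.2 j * s j c = ∑ j, P.2 j * (s j c - s j z) := by
          simp only [mul_sub, Finset.sum_sub_distrib, h2, sub_zero]
        rw [e]
        refine (norm_sum_le _ _).trans
          ((Finset.sum_le_card_nsmul _ _ ((k : ℝ) * (ε * r c ^ a)) fun j _ => ?_).trans_eq ?_)
        · rw [norm_mul, norm_sub_rev]
          exact mul_le_mul ((norm_le_pi_norm _ j).trans hPk) (hrs j z hzc) (norm_nonneg _)
            (Nat.cast_nonneg _)
        · rw [Finset.card_univ, Fintype.card_fin, nsmul_eq_mul]; ring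
    have hball : ∀ z ∈ t, (μ.prod volume) (closedBall (A z) (ε * r z ^ a) ×ˢ
        {v : Fin (q + 1) → ℂ | ‖v‖ ≤ k ∧
          ‖∑ j, v j * s j z‖ ≤ ((q + 1 : ℕ) : ℝ) * k * (ε * r z ^ a)})
        ≤ C' * ENNReal.ofReal ε ^ (n + 2) * μ (closedBall z (r z)) := by
      intro z hz
      have hr0 : 0 < r z := (hr z hz).1
      have hd : 0 ≤ ε * r z ^ a := by positivity
      have hsi : ((k : ℝ) + 1)⁻¹ ≤ ‖s i z‖ := (hts hz).2.1
      have hsi0 : 0 < ‖s i z‖ := lt_of_lt_of_le (by positivity) hsi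
      rw [Measure.prod_prod]
      refine (mul_le_mul_right (volume_strip (fun j => s j z) i
        (norm_pos_iff.1 hsi0) (k : ℝ) _) _).trans ?_
      rw [Measure.addHaar_closedBall' μ _ hd, Measure.addHaar_closedBall' μ _ hr0.le]
      have h1 : ((q + 1 : ℕ) : ℝ) * k * (ε * r z ^ a) / ‖s i z‖ ≤ C * (ε * r z ^ a) := by
        rw [div_le_iff₀ hsi0]
        have : 1 ≤ ((k : ℝ) + 1) * ‖s i z‖ := by
          rwa [inv_le_iff_one_le_mul₀' (by positivity)] at hsi
        calc ((q + 1 : ℕ) : ℝ) * k * (ε * r z ^ a)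
            ≤ ((q + 1 : ℕ) : ℝ) * k * (ε * r z ^ a) * (((k : ℝ) + 1) * ‖s i z‖) :=
              le_mul_of_one_le_right (by positivity) this
          _ = _ := by simp only [C]; ring
      have hpow : (ε * r z ^ a) ^ (n + 2) = ε ^ (n + 2) * r z ^ n := by
        rw [mul_pow, ← Real.rpow_natCast (r z ^ a), ← Real.rpow_mul hr0.le,
          ← Real.rpow_natCast (r z) n]
        congr 2
        simp only [a, critExp, Nat.cast_add, Nat.cast_ofNat]
        field_simp
        ring
      calc _ ≤ ENNReal.ofReal ((ε * r z ^ a) ^ n) * c₁ *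
            (ENNReal.ofReal (C * (ε * r z ^ a)) ^ 2 * NNReal.pi
              * volume (closedBall (0 : Fin q → ℂ) k)) := by gcongr
        _ = C' * (ENNReal.ofReal (ε * r z ^ a) ^ (n + 2) * c₁) := by
            rw [ENNReal.ofReal_pow hd, ENNReal.ofReal_mul (show 0 ≤ C by positivity)]
            simp only [C', pow_add]
            ring
        _ = _ := by
            rw [← ENNReal.ofReal_pow hd, hpow, ENNReal.ofReal_mul (by positivity),
              ENNReal.ofReal_pow hε.le]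
            simp only [c₁, n]
            ring
    have : Countable t := htc.to_subtype
    calc (μ.prod volume) (B i k) ≤ _ := measure_mono hsub
      _ ≤ ∑' z : t, _ := measure_biUnion_le _ htc _
      _ ≤ ∑' z : t, C' * ENNReal.ofReal ε ^ (n + 2) * μ (closedBall (z : E) (r z)) :=
          ENNReal.tsum_le_tsum fun z => hball z z.2
      _ = C' * ENNReal.ofReal ε ^ (n + 2) * ∑' z : t, μ (closedBall (z : E) (r z)) :=
          ENNReal.tsum_mul_left
      _ ≤ _ := by gcongr
  have hlim : Tendsto (fun ε : ℝ => C' * ENNReal.ofReal ε ^ (n + 2) * (μ (Y i k) + 1))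
      (𝓝[>] 0) (𝓝 0) := by
    have h0 : Tendsto (fun ε : ℝ => ENNReal.ofReal ε ^ (n + 2)) (𝓝[>] 0) (𝓝 0) := by
      have h := ((ENNReal.continuous_pow (n + 2)).comp ENNReal.continuous_ofReal).tendsto (0 : ℝ)
      simpa [Function.comp_def] using h.mono_left nhdsWithin_le_nhds
    have h1 := ENNReal.Tendsto.const_mul h0 (a := C') (Or.inr hC')
    have h2 := ENNReal.Tendsto.mul_const h1 (b := μ (Y i k) + 1)
      (Or.inr (ENNReal.add_ne_top.2 ⟨hY, ENNReal.one_ne_top⟩))
    simpa using h2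
  exact nonpos_iff_eq_zero.1 (ge_of_tendsto hlim
    (by filter_upwards [self_mem_nhdsWithin] with ε hε using key ε hε))

end

end Vale.Agent.P228.Frac
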