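import Vale.Agent.P228.Local
import Vale.Agent.P228.Frac.Null

/-!
Averages over a compact group: invariant maps, equivariant functions and a generic choice of an
equivariant function without zeros on a given fibre.
-/

namespace Vale.Agent.P228.Frac

open MeasureTheory Metric Set Function Filter Asymptotics
open scoped Topology NNReal ENNReal

noncomputable section

variable {E : Type*} [NormedAddCommGroup E] [InnerProductSpace ℝ E] [FiniteDimensional ℝ E]
  [MeasurableSpace E] [BorelSpace E]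
variable {K : Type*} [CommGroup K] [TopologicalSpace K] [IsTopologicalGroup K] [CompactSpace K]
  [T2Space K]

/-- the invariant mean of a function on a compact group -/
def haarMean {F : Type*} [NormedAddCommGroup F] [NormedSpace ℝ F] (g : K → F) : F :=
  letI := borel K
  haveI : BorelSpace K := ⟨rfl⟩
  ∫ k, g k ∂(Measure.haarMeasure ⊤ : Measure K)

lemma haarMean_spec [MeasurableSpace K] [BorelSpace K] {F : Type*} [NormedAddCommGroup F]
    [NormedSpace ℝ F] (g : K → F) :
    haarMean g = ∫ k, g k ∂(Measure.haarMeasure ⊤ : Measure K) := by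
  borelize K
  rfl

lemma isProbabilityMeasure_haarTop [MeasurableSpace K] [BorelSpace K] :
    IsProbabilityMeasure (Measure.haarMeasure ⊤ : Measure K) :=
  ⟨by simpa using Measure.haarMeasure_self (K₀ := (⊤ : TopologicalSpace.PositiveCompacts K))⟩

/-- Near `z` the family `k ↦ g k` is uniformly `O(|w - z| ^ a)`, and each member is `o`. -/
def UnifSmall {ι F : Type*} [NormedAddCommGroup F] (g : ι → E → F) (z : E) : Prop :=
  (∃ m ρ : ℝ, 0 < ρ ∧ ∀ k w, dist w z < ρ → ‖g k w - g k z‖ ≤ m * ‖w - z‖ ^ critExp E) ∧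
    ∀ k, SmallOsc (g k) z

omit [MeasurableSpace E] [BorelSpace E] [FiniteDimensional ℝ E] in
lemma UnifSmall.lipschitz_comp {ι F G : Type*} [NormedAddCommGroup F] [NormedAddCommGroup G]
    {g : ι → E → F} {z : E} (h : UnifSmall g z) {S : Set F} {φ : F → G} {L : ℝ≥0}
    (hφ : LipschitzOnWith L φ S) (hmem : ∀ᶠ w in 𝓝 z, ∀ k, g k w ∈ S) :
    UnifSmall (fun k w => φ (g k w)) z := by
  obtain ⟨⟨m, ρ, hρ, hb⟩, ho⟩ := h
  have hz := hmem.self_of_nhds
  obtain ⟨ρ', hρ', hmem'⟩ := Metric.eventually_nhds_iff.1 hmem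
  refine ⟨⟨L * m, min ρ ρ', lt_min hρ hρ', fun k w hw => ?_⟩, fun k => ?_⟩
  · rw [mul_assoc]
    exact (hφ.norm_sub_le (hmem' (hw.trans_le (min_le_right _ _)) k) (hz k)).trans
      (mul_le_mul_of_nonneg_left (hb k w (hw.trans_le (min_le_left _ _))) L.2)
  · refine IsBigO.trans_isLittleO (IsBigO.of_bound (L : ℝ) ?_) (ho k)
    filter_upwards [hmem] with w hw
    exact hφ.norm_sub_le (hw k) (hz k)

/-- dominated convergence: the mean of a uniformly small family is small -/
lemma smallOsc_haarMean {F : Type*} [NormedAddCommGroup F] [NormedSpace ℝ F]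
    {g : K → E → F} {z : E} (h : UnifSmall g z)
    (hc : ∀ᶠ w in 𝓝 z, Continuous fun k => g k w) :
    SmallOsc (fun w => haarMean fun k => g k w) z := by
  borelize K
  have := isProbabilityMeasure_haarTop (K := K)
  simp only [haarMean_spec]
  set ν : Measure K := Measure.haarMeasure ⊤
  obtain ⟨⟨m, ρ, hρ, hb⟩, ho⟩ := h
  set r : E → ℝ := fun w => ‖w - z‖ ^ critExp E
  have hr : ∀ w, 0 ≤ r w := fun w => Real.rpow_nonneg (norm_nonneg _) _
  have hint : ∀ w, Continuous (fun k => g k w) → Integrable (fun k => g k w) ν := fun w hw =>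
    hw.integrable_of_hasCompactSupport (HasCompactSupport.of_compactSpace _)
  have hz := hc.self_of_nhds
  have hq : Tendsto (fun w => ∫ k, ‖g k w - g k z‖ / r w ∂ν) (𝓝 z) (𝓝 0) := by
    have := tendsto_integral_filter_of_dominated_convergence (μ := ν) (l := 𝓝 z)
      (F := fun w k => ‖g k w - g k z‖ / r w) (f := fun _ => (0 : ℝ)) (fun _ => |m|)
      (hc.mono fun w hw => ((hw.sub hz).norm.div_const _).aestronglyMeasurable)
      (by
        filter_upwards [ball_mem_nhds z hρ] with w hw
        refine Eventually.of_forall fun k => ?_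
        rw [Real.norm_eq_abs, abs_of_nonneg (div_nonneg (norm_nonneg _) (hr w))]
        exact div_le_of_le_mul₀ (hr w) (abs_nonneg _)
          ((hb k w hw).trans (mul_le_mul_of_nonneg_right (le_abs_self m) (hr w))))
      (integrable_const _) (Eventually.of_forall fun k =>
        (ho k).norm_left.tendsto_div_nhds_zero)
    simpa using this
  refine isLittleO_iff.2 fun c hc' => ?_
  filter_upwards [hc, ball_mem_nhds z hρ, hq.eventually (gt_mem_nhds hc')] with w hw hwρ hwc
  rw [Real.norm_eq_abs, abs_of_nonneg (hr w), ← integral_sub (hint w hw) (hint z hz)]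
  refine (norm_integral_le_integral_norm _).trans ?_
  by_cases h0 : r w = 0
  · have : ∀ k, ‖g k w - g k z‖ = 0 := fun k =>
      le_antisymm ((hb k w hwρ).trans_eq (by change m * r w = 0; rw [h0, mul_zero])) (norm_nonneg _)
    simp [this, h0]
  · have e : (fun k => ‖g k w - g k z‖) = fun k => ‖g k w - g k z‖ / r w * r w := by
      funext k; rw [div_mul_cancel₀ _ h0]
    rw [e, integral_mul_const]
    exact mul_le_mul_of_nonneg_right hwc.le (hr w)

/-- the invariant map -/
def avgMap (f : K → E → E) (ψ : E → E) (x : E) : E := haarMean fun k => ψ (f k x)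

/-- the equivariant function -/
def avgFun (f : K → E → E) (χ : K → ℂ) (φ : E → ℂ) (x : E) : ℂ :=
  haarMean fun k => (χ k)⁻¹ * φ (f k x)

variable {f : K → E → E} {c : E} {R : ℝ}

omit [MeasurableSpace E] [BorelSpace E] in
lemma exists_orbit_ball (hf : IsLocalAction f c R) :
    ∃ r, ∀ k, ∀ x ∈ closedBall c R, f k x ∈ closedBall c r := by
  obtain ⟨r, hr⟩ := ((isCompact_univ.prod (isCompact_closedBall c R)).image_of_continuousOn
    hf.cont).isBounded.subset_closedBall c
  exact ⟨r, fun k x hx => hr ⟨(k, x), ⟨mem_univ _, hx⟩, rfl⟩⟩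

omit [MeasurableSpace E] [BorelSpace E] in
lemma continuousOn_haarMean {F : Type*} [NormedAddCommGroup F] [NormedSpace ℝ F]
    [SecondCountableTopology F]
    {g : K → E → F} {S : Set E} (hS : IsCompact S)
    (hg : ContinuousOn (uncurry g) (univ ×ˢ S)) :
    ContinuousOn (fun x => haarMean fun k => g k x) S := by
  borelize K
  have := isProbabilityMeasure_haarTop (K := K)
  simp only [haarMean_spec]
  obtain ⟨B, hB⟩ := ((isCompact_univ.prod hS).image_of_continuousOn hg).isBounded.exists_norm_le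
  exact continuousOn_of_dominated (bound := fun _ => B)
    (fun x hx => (hg.comp_continuous (continuous_id.prodMk continuous_const)
      fun k => ⟨mem_univ k, hx⟩).aestronglyMeasurable)
    (fun x hx => Eventually.of_forall fun k => hB _ ⟨(k, x), ⟨mem_univ _, hx⟩, rfl⟩)
    (integrable_const B)
    (Eventually.of_forall fun k => hg.comp (continuousOn_const.prodMk continuousOn_id)
      fun x hx => ⟨mem_univ _, hx⟩)

omit [MeasurableSpace E] [BorelSpace E] in
lemma continuousOn_avgMap (hf : IsLocalAction f c R) {ψ : E → E} (hψ : Continuous ψ) :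
    ContinuousOn (avgMap f ψ) (closedBall c R) :=
  continuousOn_haarMean (isCompact_closedBall c R) (hψ.comp_continuousOn hf.cont)

omit [MeasurableSpace E] [BorelSpace E] in
lemma continuousOn_avgFun (hf : IsLocalAction f c R) {χ : K → ℂ} (hχ : Continuous χ)
    (hχ0 : ∀ k, χ k ≠ 0) {φ : E → ℂ} (hφ : Continuous φ) :
    ContinuousOn (avgFun f χ φ) (closedBall c R) :=
  continuousOn_haarMean (isCompact_closedBall c R)
    (((hχ.comp continuous_fst).inv₀ fun q => hχ0 q.1).continuousOn.mul
      (hφ.comp_continuousOn hf.cont))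

omit [MeasurableSpace E] [BorelSpace E] in
lemma avgMap_invariant (hf : IsLocalAction f c R) (ψ : E → E) (l : K) {x : E}
    (hx : x ∈ closedBall c R) (hlx : f l x ∈ closedBall c R) :
    avgMap f ψ (f l x) = avgMap f ψ x := by
  borelize K
  simp only [avgMap, haarMean_spec]
  rw [← integral_mul_right_eq_self (μ := (Measure.haarMeasure ⊤ : Measure K))
    (fun k => ψ (f k x)) l]
  simp only [hf.mul _ l x hx hlx]

omit [MeasurableSpace E] [BorelSpace E] in
lemma avgFun_equivariant (hf : IsLocalAction f c R) {χ : K → ℂ} (hχ0 : ∀ k, χ k ≠ 0)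
    (hχm : ∀ k l, χ (k * l) = χ k * χ l) (φ : E → ℂ) (l : K) {x : E}
    (hx : x ∈ closedBall c R) (hlx : f l x ∈ closedBall c R) :
    avgFun f χ φ (f l x) = χ l * avgFun f χ φ x := by
  borelize K
  simp only [avgFun, haarMean_spec]
  rw [← integral_mul_right_eq_self (μ := (Measure.haarMeasure ⊤ : Measure K))
    (fun k => (χ k)⁻¹ * φ (f k x)) l, ← integral_const_mul]
  refine integral_congr_ae (Eventually.of_forall fun k => ?_)
  simp only
  rw [hf.mul k l x hx hlx, hχm, mul_inv, ← mul_assoc, ← mul_assoc, mul_comm (χ l),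
    mul_assoc (χ k)⁻¹, mul_inv_cancel₀ (hχ0 l), mul_one]

omit [MeasurableSpace E] [BorelSpace E] in
lemma avgMap_mem (hf : IsLocalAction f c R) {ψ : E → E} (hψ : Continuous ψ) {x : E}
    (hx : x ∈ closedBall c R) {C : Set E} (hC : Convex ℝ C) (hCc : IsClosed C)
    (hk : ∀ k, ψ (f k x) ∈ C) : avgMap f ψ x ∈ C := by
  borelize K
  have := isProbabilityMeasure_haarTop (K := K)
  rw [avgMap, haarMean_spec]
  exact hC.integral_mem hCc (Eventually.of_forall hk)
    ((hψ.comp (hf.cont_left hx)).integrable_of_hasCompactSupport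
      (HasCompactSupport.of_compactSpace _))

omit [MeasurableSpace E] [BorelSpace E] in
lemma avgMap_fixed {ψ : E → E} {x : E} (hfix : ∀ k, f k x = x) : avgMap f ψ x = ψ x := by
  borelize K
  have := isProbabilityMeasure_haarTop (K := K)
  simp [avgMap, haarMean_spec, hfix]

omit [MeasurableSpace E] [BorelSpace E] in
/-- some averaged function does not vanish at a point whose orbit separates the character -/
lemma exists_avgFun_ne_zero (hf : IsLocalAction f c R) {p : ℕ} {χ : K → ℂ} (hχ : Continuous χ)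
    (hp : 0 < p) (hχp : ∀ k, χ k ^ p = 1) (hχ1 : χ 1 = 1) {x : E} (hx : x ∈ closedBall c R)
    (hsep : ∀ k l, f k x = f l x → χ k = χ l) :
    ∃ φ : E → ℂ, (∃ L, LipschitzWith L φ) ∧ avgFun f χ φ x ≠ 0 := by
  borelize K
  set S : Set K := {k | χ k = 1}
  have hfin : {v : ℂ | v ^ p = 1 ∧ v ≠ 1}.Finite :=
    (Polynomial.nthRootsFinset p (1 : ℂ)).finite_toSet.subset fun v hv =>
      (Polynomial.mem_nthRootsFinset hp 1).2 hv.1
  have hSo : IsOpen S := by
    have : S = (χ ⁻¹' {v : ℂ | v ^ p = 1 ∧ v ≠ 1})ᶜ := by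
      ext k; simp [S, hχp k]
    rw [this]
    exact (hfin.isClosed.preimage hχ).isOpen_compl
  have hSc : IsClosed S := isClosed_eq hχ continuous_const
  set O₀ := (fun k => f k x) '' S
  set O₁ := (fun k => f k x) '' Sᶜ
  have hcx := hf.cont_left hx
  have hO₀ : IsCompact O₀ := hSc.isCompact.image hcx
  have hne : O₀.Nonempty := ⟨f 1 x, 1, hχ1, rfl⟩
  obtain ⟨d, hd, hd₁⟩ := (hSo.isClosed_compl.isCompact.image hcx).exists_forall_le'
    (f := fun z => infDist z O₀) (a := 0) (continuous_infDist_pt O₀).continuousOn (fun z hz =>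
      (hO₀.isClosed.notMem_iff_infDist_pos hne).1 fun h => by
        obtain ⟨k, hk, rfl⟩ := hz
        obtain ⟨l, hl, hlk⟩ := h
        exact hk (show χ k = 1 by rw [← hsep l k hlk]; exact hl))
  let φr : E → ℝ := fun z => max (1 - d⁻¹ * infDist z O₀) 0
  have hL : LipschitzWith (Real.toNNReal d⁻¹) φr := by
    refine LipschitzWith.of_dist_le_mul fun a b => ?_
    rw [Real.coe_toNNReal _ (by positivity), Real.dist_eq]
    refine (abs_max_sub_max_le_abs _ _ _).trans ?_
    rw [sub_sub_sub_cancel_left, ← mul_sub, abs_mul, abs_of_pos (inv_pos.2 hd), abs_sub_comm,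
      ← Real.dist_eq]
    gcongr
    simpa using (lipschitz_infDist_pt O₀).dist_le_mul a b
  refine ⟨fun z => (φr z : ℂ), ⟨_, Complex.isometry_ofReal.lipschitz.comp hL⟩, ?_⟩
  have := isProbabilityMeasure_haarTop (K := K)
  have hpt : ∀ k, (χ k)⁻¹ * (φr (f k x) : ℂ) = S.indicator (fun _ => (1 : ℂ)) k := by
    intro k
    by_cases hk : k ∈ S
    · rw [indicator_of_mem hk, show χ k = 1 from hk]
      simp [φr, infDist_zero_of_mem (show f k x ∈ O₀ from ⟨k, hk, rfl⟩)]
    · rw [indicator_of_notMem hk]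
      have h := hd₁ (f k x) ⟨k, hk, rfl⟩
      have : φr (f k x) = 0 := by
        refine max_eq_right (sub_nonpos.2 ?_)
        rw [inv_mul_eq_div, le_div_iff₀ hd, one_mul]
        exact h
      simp [this]
  simp only [avgFun, haarMean_spec, hpt]
  rw [integral_indicator_const _ hSc.measurableSet]
  simp only [Complex.real_smul, mul_one, ne_eq, Complex.ofReal_eq_zero]
  exact (ENNReal.toReal_pos (hSo.measure_pos _ ⟨1, hχ1⟩).ne' (measure_ne_top _ _)).ne'

/-- `f` is tame on `S`: after a change of parameters it is uniformly small. -/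
def Tame (f : K → E → E) (c : E) (R : ℝ) (S : Set E) : Prop :=
  ∃ θ : E → E, ∃ D : Set E, IsOpen D ∧ ContinuousOn θ D ∧ MapsTo θ D (closedBall c R) ∧
    S ⊆ θ '' D ∧ ∀ z ∈ D, UnifSmall (fun k w => f k (θ w)) z

/-- a value in `U` and an equivariant function which does not vanish on its fibre -/
theorem exists_good (hf : IsLocalAction f c R) {p : ℕ} {χ : K → ℂ} (hχ : Continuous χ)
    (hp : 0 < p) (hχp : ∀ k, χ k ^ p = 1) (hχ1 : χ 1 = 1) (hχm : ∀ k l, χ (k * l) = χ k * χ l)
    {ψ : E → E} (hψ : Continuous ψ) (hψL : ∀ r, ∃ L, LipschitzOnWith L ψ (closedBall c r))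
    {R' : ℝ} (hR' : R' ≤ R) (htame : Tame f c R (closedBall c R')) {U : Set E} (hU : IsOpen U)
    (hUne : U.Nonempty) (hUb : Bornology.IsBounded U)
    (hsep : ∀ x ∈ closedBall c R', avgMap f ψ x ∈ closure U →
      ∀ k l, f k x = f l x → χ k = χ l) :
    ∃ y ∈ U, ∃ σ : E → ℂ, ContinuousOn σ (closedBall c R) ∧
      (∀ l, ∀ x ∈ closedBall c R, f l x ∈ closedBall c R → σ (f l x) = χ l * σ x) ∧
      ∀ x ∈ closedBall c R', avgMap f ψ x = y → σ x ≠ 0 := by
  classical
  have hχ0 : ∀ k, χ k ≠ 0 := fun k h => by simpa [h, hp.ne'] using hχp k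
  have hsub : closedBall c R' ⊆ closedBall c R := closedBall_subset_closedBall hR'
  set A := avgMap f ψ
  set X := closedBall c R' ∩ A ⁻¹' closure U
  have hX : IsCompact X := (isCompact_closedBall c R').of_isClosed_subset
    (((continuousOn_avgMap hf hψ).mono hsub).preimage_isClosed_of_isClosed isClosed_closedBall
      isClosed_closure) inter_subset_left
  choose! φ hφL hφne using fun x (hx : x ∈ X) =>
    exists_avgFun_ne_zero hf hχ hp hχp hχ1 (hsub hx.1) (hsep x hx.1 hx.2)
  have hφc : ∀ x ∈ X, Continuous (φ x) := fun x hx => (hφL x hx).choose_spec.continuous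
  obtain ⟨t, ht, hcov⟩ := hX.elim_nhdsWithin_subcover
    (fun x => avgFun f χ (φ x) ⁻¹' {0}ᶜ) fun x hx =>
      (((continuousOn_avgFun hf hχ hχ0 (hφc x hx)).mono (inter_subset_left.trans hsub)) x hx)
        (isOpen_compl_singleton.mem_nhds (hφne x hx))
  let q := t.card
  let e := t.equivFin.symm
  let s : Fin q → E → ℂ := fun j => avgFun f χ (φ (e j : E))
  have he : ∀ j, (e j : E) ∈ X := fun j => ht _ (e j).2
  have hne : ∀ x ∈ X, ∃ j, s j x ≠ 0 := fun x hx => by
    obtain ⟨a, ha, hax⟩ := mem_iUnion₂.1 (hcov hx)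
    refine ⟨t.equivFin ⟨a, ha⟩, ?_⟩
    simpa [s, e] using hax
  obtain ⟨θ, D, hDo, hθc, hθm, hθs, hunif⟩ := htame
  obtain ⟨r, hr⟩ := exists_orbit_ball hf
  have hev : ∀ z ∈ D, ∀ᶠ w in 𝓝 z, ∀ k, f k (θ w) ∈ closedBall c r := fun z hz => by
    filter_upwards [hDo.mem_nhds hz] with w hw k using hr k _ (hθm hw)
  have hcont : ∀ z ∈ D, ∀ᶠ w in 𝓝 z, Continuous fun k => f k (θ w) := fun z hz => by
    filter_upwards [hDo.mem_nhds hz] with w hw
    exact hf.cont_left (hθm hw)
  have hAo : ∀ z ∈ D, SmallOsc (fun w => A (θ w)) z := fun z hz => by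
    obtain ⟨L, hL⟩ := hψL r
    exact smallOsc_haarMean ((hunif z hz).lipschitz_comp hL (hev z hz)) ((hcont z hz).mono fun w hw => hψ.comp hw)
  have hso : ∀ z ∈ D, ∀ j, SmallOsc (fun w => s j (θ w)) z := fun z hz j => by
    obtain ⟨L, hL⟩ := hφL _ (he j)
    have h := (hunif z hz).lipschitz_comp hL.lipschitzOnWith (hev z hz)
    refine smallOsc_haarMean ?_ ?_
    · obtain ⟨⟨m, ρ, hρ, hb⟩, ho⟩ := h
      have hn : ∀ k, ‖(χ k)⁻¹‖ = 1 := fun k => by
        rw [norm_inv, Complex.norm_eq_one_of_pow_eq_one (hχp k) hp.ne', inv_one]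
      refine ⟨⟨m, ρ, hρ, fun k w hw => ?_⟩, fun k => ?_⟩
      · simp only [← mul_sub, norm_mul, hn, one_mul]
        exact hb k w hw
      · simpa only [SmallOsc, mul_sub] using (ho k).const_mul_left (χ k)⁻¹
    · filter_upwards [hcont z hz] with w hw
      exact (hχ.inv₀ hχ0).mul (hL.continuous.comp hw)
  let μ : Measure E := Measure.addHaar
  have hnull := badSet_null μ (A := fun w => A (θ w)) (s := fun j w => s j (θ w))
    (X := D ∩ θ ⁻¹' X) (fun z hz => hAo z hz.1) (fun z hz => hso z hz.1)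
    fun z hz => hne (θ z) hz.2
  obtain ⟨P, hP, hPgood⟩ : ∃ P ∈ U ×ˢ (univ : Set (Fin q → ℂ)),
      P ∉ badSet (fun w => A (θ w)) (fun j w => s j (θ w)) (D ∩ θ ⁻¹' X) := by
    by_contra h
    push Not at h
    have h0 := measure_mono_null h hnull
    rw [Measure.prod_prod] at h0
    rcases mul_eq_zero.1 h0 with h1 | h1
    · exact (hU.measure_pos μ hUne).ne' h1
    · exact isOpen_univ.measure_ne_zero volume univ_nonempty h1
  refine ⟨P.1, hP.1, fun x => ∑ j, P.2 j * s j x, ?_, ?_, ?_⟩
  · exact continuousOn_finsetSum _ fun j _ =>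
      continuousOn_const.mul (continuousOn_avgFun hf hχ hχ0 (hφc _ (he j)))
  · intro l x hx hlx
    simp only [Finset.mul_sum, s, avgFun_equivariant hf hχ0 hχm _ l hx hlx]
    exact Finset.sum_congr rfl fun j _ => by ring
  · intro x hx hAx h0
    have hxX : x ∈ X := ⟨hx, by rw [mem_preimage, hAx]; exact subset_closure hP.1⟩
    obtain ⟨w, hw, rfl⟩ := hθs hx
    exact hPgood ⟨w, ⟨hw, hxX⟩, hAx, h0⟩

end

end Vale.Agent.P228.Frac
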