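import Vale.Agent.P228.Frac.DegHom

/-!
The degree of a map branched along `E × {0}`: `(x, w) ↦ (a (x, w ^ (m p)), w ^ m * b (x, w ^ (m p)))`.
-/

namespace Vale.Agent.P228.Frac

open MeasureTheory Metric Set Function Filter
open scoped Topology

noncomputable section

variable {E : Type*} [NormedAddCommGroup E] [NormedSpace ℝ E] [FiniteDimensional ℝ E]
  [MeasurableSpace E] [BorelSpace E]

/-- multiplication by a complex number, as a real linear map -/
abbrev cmul (c : ℂ) : ℂ →L[ℝ] ℂ := ContinuousLinearMap.mul ℝ ℂ c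

lemma det_cmul (c : ℂ) : (cmul c).det = Complex.normSq c := by
  rw [ContinuousLinearMap.det, ← Algebra.norm_complex_apply, Algebra.norm_apply]
  congr 1

omit [MeasurableSpace E] [BorelSpace E] in
lemma det_triangular (A : E →L[ℝ] E) (B : ℂ →L[ℝ] E) (C : ℂ →L[ℝ] ℂ) :
    (((A.comp (ContinuousLinearMap.fst ℝ E ℂ)) + B.comp (ContinuousLinearMap.snd ℝ E ℂ)).prod
      (C.comp (ContinuousLinearMap.snd ℝ E ℂ))).det = A.det * C.det := by
  classical
  let b₁ := Module.finBasis ℝ E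
  let b₂ := Module.finBasis ℝ ℂ
  simp only [ContinuousLinearMap.det]
  rw [← LinearMap.det_toMatrix (b₁.prod b₂), ← LinearMap.det_toMatrix b₁,
    ← LinearMap.det_toMatrix b₂]
  rw [show LinearMap.toMatrix (b₁.prod b₂) (b₁.prod b₂)
      ((((A.comp (ContinuousLinearMap.fst ℝ E ℂ)) + B.comp (ContinuousLinearMap.snd ℝ E ℂ)).prod
        (C.comp (ContinuousLinearMap.snd ℝ E ℂ))) : E × ℂ →L[ℝ] E × ℂ).toLinearMap
      = Matrix.fromBlocks (LinearMap.toMatrix b₁ b₁ A.toLinearMap)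
          (LinearMap.toMatrix b₂ b₁ B.toLinearMap) 0 (LinearMap.toMatrix b₂ b₂ C.toLinearMap) from ?_]
  · exact Matrix.det_fromBlocks_zero₂₁ _ _ _
  ext (i | i) (j | j) <;>
    simp [LinearMap.toMatrix_apply, Matrix.fromBlocks]

lemma exists_roots {n : ℕ} (hn : 0 < n) {u : ℂ} (hu : u ≠ 0) :
    ∃ s : Finset ℂ, s.card = n ∧ ∀ w, w ∈ s ↔ w ^ n = u := by
  classical
  have hζ := Complex.isPrimitiveRoot_exp n hn.ne'
  refine ⟨Polynomial.nthRootsFinset n u, ?_, fun w => Polynomial.mem_nthRootsFinset hn u⟩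
  rw [Polynomial.nthRootsFinset_def, Multiset.toFinset_card_of_nodup (hζ.nthRoots_nodup hu),
    hζ.card_nthRoots, if_pos (IsAlgClosed.exists_pow_nat_eq u hn)]

omit [MeasurableSpace E] [BorelSpace E] in
lemma dsign_comp_pos {f : E → E} {x : E} {L : E →L[ℝ] E} (h : HasFDerivAt f L x) {c : ℝ} {d : ℝ}
    (hc : 0 < c) (hd : L.det = c * d) : dsign f x = if 0 < d then 1 else -1 := by
  rw [dsign, h.fderiv, hd]
  simp only [mul_pos_iff_of_pos_left hc]

omit [MeasurableSpace E] [BorelSpace E] in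
lemma regularAt_of_det {f : E → E} {x : E} {L : E →L[ℝ] E} (h : HasFDerivAt f L x)
    (hd : L.det ≠ 0) : RegularAt f x :=
  ⟨L.toContinuousLinearEquivOfDetNeZero hd, by simpa using h⟩

variable (R : ℝ) (m p : ℕ)

/-- `z ↦ (z / R) ^ k` -/
def wpow (k : ℕ) (z : ℂ) : ℂ := ((R : ℂ)⁻¹ * z) ^ k

/-- the branched map -/
def branched (a : E × ℂ → E) (b : E × ℂ → ℂ) (q : E × ℂ) : E × ℂ :=
  (a (q.1, wpow R (m * p) q.2), wpow R m q.2 * b (q.1, wpow R (m * p) q.2))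

variable {R m p}

lemma norm_wpow (hR : 0 < R) (k : ℕ) (z : ℂ) : ‖wpow R k z‖ = (‖z‖ / R) ^ k := by
  rw [wpow, norm_pow, norm_mul, norm_inv, Complex.norm_real, Real.norm_eq_abs, abs_of_pos hR,
    inv_mul_eq_div]

lemma hasFDerivAt_wpow (k : ℕ) (z : ℂ) :
    HasFDerivAt (wpow R k) (cmul ((k : ℂ) * ((R : ℂ)⁻¹ * z) ^ (k - 1) * (R : ℂ)⁻¹)) z := by
  have h := (((hasDerivAt_id z).const_mul (R : ℂ)⁻¹).pow k).hasFDerivAt.restrictScalars ℝ
  refine h.congr_fderiv ?_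
  ext v
  simp [mul_comm]

lemma sphere_prod_cases {q : E × ℂ} (hq : q ∈ sphere (0 : E × ℂ) R) :
    q.1 ∈ closedBall (0 : E) R ∧ ‖q.2‖ ≤ R ∧ (q.1 ∈ sphere (0 : E) R ∨ ‖q.2‖ = R) := by
  rw [mem_sphere_zero_iff_norm, Prod.norm_def] at hq
  refine ⟨mem_closedBall_zero_iff.2 (hq ▸ le_max_left _ _), hq ▸ le_max_right _ _, ?_⟩
  rcases max_cases ‖q.1‖ ‖q.2‖ with ⟨h, -⟩ | ⟨h, -⟩
  · exact Or.inl (mem_sphere_zero_iff_norm.2 (h.symm.trans hq))
  · exact Or.inr (h.symm.trans hq)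

omit [MeasurableSpace E] [BorelSpace E] in
lemma exists_min_norm {X F : Type*} [TopologicalSpace X] [NormedAddCommGroup F] {f : X → F}
    {s : Set X} (hs : IsCompact s) (hf : ContinuousOn f s) (h : ∀ x ∈ s, f x ≠ 0) :
    ∃ μ > 0, ∀ x ∈ s, μ ≤ ‖f x‖ := by
  obtain ⟨μ, hμ, hle⟩ := hs.exists_forall_le' (f := fun x => ‖f x‖) (a := 0) hf.norm
    fun x hx => norm_pos_iff.2 (h x hx)
  exact ⟨μ, hμ, hle⟩

theorem deg_branched (hR : 0 < R) (hp : 0 < p) (hm : 0 < m) {a : E × ℂ → E} {b : E × ℂ → ℂ}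
    (ha : Continuous a) (hb : Continuous b)
    (hab : ∀ x ∈ closedBall (0 : E) R, ∀ u : ℂ, ‖u‖ = 1 → (a (x, u), b (x, u)) ≠ 0)
    (haS : ∀ x ∈ sphere (0 : E) R, ∀ u : ℂ, ‖u‖ ≤ 1 → a (x, u) ≠ 0) :
    ∃ s : ℤ, deg (0 : E × ℂ) R (branched R m p a b)
      = (m : ℤ) * deg (0 : E) R (fun x => a (x, 0)) + ((m * p : ℕ) : ℤ) * s := by
  classical
  have hN : 0 < m * p := Nat.mul_pos hm hp
  obtain ⟨μ₁, hμ₁, h₁⟩ := exists_min_norm
    ((isCompact_closedBall (0 : E) R).prod (isCompact_sphere (0 : ℂ) 1))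
    (ha.prodMk hb).continuousOn
    fun q hq => by simpa using hab q.1 hq.1 q.2 (mem_sphere_zero_iff_norm.1 hq.2)
  obtain ⟨μ₂, hμ₂, h₂⟩ := exists_min_norm
    ((isCompact_sphere (0 : E) R).prod (isCompact_closedBall (0 : ℂ) 1)) ha.continuousOn
    fun q hq => by simpa using haS q.1 hq.1 q.2 (mem_closedBall_zero_iff.1 hq.2)
  set ε := min μ₁ μ₂ / 4 with hεdef
  have hε : 0 < ε := by positivity
  have hε1 : 2 * ε < μ₁ := by have := min_le_left μ₁ μ₂; linarith [hεdef]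
  have hε2 : 2 * ε < μ₂ := by have := min_le_right μ₁ μ₂; linarith [hεdef]
  -- smooth generic approximations
  obtain ⟨G, hG, hGg, -⟩ := (ha.prodMk hb).exists_contDiff_approx 1 (ε := fun _ => ε)
    continuous_const fun _ => hε
  set e : ℂ := ((2 : ℂ)⁻¹)
  have he0 : e ≠ 0 := by norm_num [e]
  have he1 : ‖e‖ < 1 := by norm_num [e]
  set u₀ : ℂ := e ^ p with hu₀
  have hu₀0 : u₀ ≠ 0 := pow_ne_zero _ he0
  have hu₀1 : ‖u₀‖ ≤ 1 := by rw [hu₀, norm_pow]; exact pow_le_one₀ (norm_nonneg _) he1.le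
  let μE : Measure E := Measure.addHaar
  let μ : Measure (E × ℂ) := μE.prod volume
  have hGd : ∀ q, HasFDerivAt G (fderiv ℝ G q) q := fun q =>
    (hG.differentiable one_ne_zero q).hasFDerivAt
  have hs₀d : ∀ x, HasFDerivAt (fun x => (G (x, u₀)).1) ((ContinuousLinearMap.fst ℝ E ℂ).comp
      ((fderiv ℝ G (x, u₀)).comp (ContinuousLinearMap.inl ℝ E ℂ))) x := fun x =>
    (ContinuousLinearMap.fst ℝ E ℂ).hasFDerivAt.comp x ((hGd (x, u₀)).comp x
      ((hasFDerivAt_id x).prodMk (hasFDerivAt_const u₀ x)))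
  set S₃ : Set E := (fun x => (G (x, u₀)).1) '' {x | (((ContinuousLinearMap.fst ℝ E ℂ).comp
      ((fderiv ℝ G (x, u₀)).comp (ContinuousLinearMap.inl ℝ E ℂ))) : E →L[ℝ] E).det = 0}
  have hnull : μ (G '' {q | (fderiv ℝ G q).det = 0} ∪ G '' (univ ×ˢ {0, u₀}) ∪ S₃ ×ˢ univ) = 0 := by
    refine measure_union_null (measure_union_null ?_ ?_) ?_
    · exact addHaar_image_eq_zero_of_det_fderivWithin_eq_zero μ
        (fun q _ => (hGd q).hasFDerivWithinAt) fun q hq => hq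
    · refine addHaar_image_eq_zero_of_differentiableOn_of_addHaar_eq_zero μ
        (hG.differentiable one_ne_zero).differentiableOn ?_
      rw [Measure.prod_prod, (Set.toFinite ({0, u₀} : Set ℂ)).measure_zero volume, mul_zero]
    · rw [Measure.prod_prod, show μE S₃ = 0 from
        addHaar_image_eq_zero_of_det_fderivWithin_eq_zero μE
          (fun x _ => (hs₀d x).hasFDerivWithinAt) fun x hx => hx, zero_mul]
  obtain ⟨v, hv, hvG⟩ : ∃ v ∈ ball (0 : E × ℂ) ε, v ∉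
      G '' {q | (fderiv ℝ G q).det = 0} ∪ G '' (univ ×ˢ {0, u₀}) ∪ S₃ ×ˢ univ := by
    by_contra h
    push Not at h
    exact (measure_ball_pos μ (0 : E × ℂ) hε).ne' (measure_mono_null h hnull)
  simp only [mem_union, not_or] at hvG
  obtain ⟨⟨hv1, hv2⟩, hv3⟩ := hvG
  set g : E × ℂ → E × ℂ := fun q => G q - v with hgdef
  have hgd : ∀ q, HasFDerivAt g (fderiv ℝ G q) q := fun q => (hGd q).sub_const v
  have hgc : Continuous g := hG.continuous.sub continuous_const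
  have hgnear : ∀ q, ‖g q - (a q, b q)‖ ≤ 2 * ε := fun q => by
    calc ‖G q - v - (a q, b q)‖ = ‖(G q - (a q, b q)) - v‖ := by congr 1; abel
      _ ≤ ‖G q - (a q, b q)‖ + ‖v‖ := norm_sub_le _ _
      _ ≤ ε + ε := by rw [← dist_eq_norm]; exact add_le_add (hGg q).le (mem_ball_zero_iff.1 hv).le
      _ = 2 * ε := by ring
  have hg_reg : ∀ q, g q = 0 → (fderiv ℝ G q).det ≠ 0 := fun q hq h =>
    hv1 ⟨q, h, sub_eq_zero.1 hq⟩
  have hg_u : ∀ x u, g (x, u) = 0 → u ≠ 0 ∧ u ≠ u₀ := fun x u hq => by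
    constructor <;> rintro rfl <;>
      exact hv2 ⟨_, ⟨mem_univ _, by simp⟩, sub_eq_zero.1 hq⟩
  have hs₀g : ∀ x, HasFDerivAt (fun x => (g (x, u₀)).1) ((ContinuousLinearMap.fst ℝ E ℂ).comp
      ((fderiv ℝ G (x, u₀)).comp (ContinuousLinearMap.inl ℝ E ℂ))) x := fun x => by
    simpa [g] using (hs₀d x).sub_const v.1
  have hs_reg : ∀ x, (g (x, u₀)).1 = 0 → (((ContinuousLinearMap.fst ℝ E ℂ).comp
      ((fderiv ℝ G (x, u₀)).comp (ContinuousLinearMap.inl ℝ E ℂ))) : E →L[ℝ] E).det ≠ 0 :=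
    fun x hx h => hv3 ⟨⟨x, h, sub_eq_zero.1 (by simpa [g] using hx)⟩, mem_univ _⟩
  -- zeros of the slice and of `g`
  have hac : Continuous fun x => (g (x, u₀)).1 :=
    continuous_fst.comp (hgc.comp (continuous_id.prodMk continuous_const))
  obtain ⟨X₁, hX₁⟩ := (finite_regular_fiber (c := (0 : E)) (R := R) hac.continuousOn 0
    fun x _ hx => regularAt_of_det (hs₀g x) (hs_reg x hx)).exists_finset
  obtain ⟨X₂', hX₂'⟩ := (finite_regular_fiber (c := (0 : E × ℂ)) (R := max R 1) hgc.continuousOn 0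
    fun q _ hq => regularAt_of_det (hgd q) (hg_reg q hq)).exists_finset
  set X₂ := X₂'.filter fun q => ‖q.1‖ ≤ R ∧ ‖q.2‖ ≤ 1
  have hX₂ : ∀ q, q ∈ X₂ ↔ (‖q.1‖ ≤ R ∧ ‖q.2‖ ≤ 1) ∧ g q = 0 := fun q => by
    simp only [X₂, Finset.mem_filter, hX₂']
    refine ⟨fun h => ⟨h.2, h.1.2⟩, fun h => ⟨⟨?_, h.2⟩, h.1⟩⟩
    rw [mem_closedBall_zero_iff, Prod.norm_def]
    exact max_le_max h.1.1 h.1.2
  obtain ⟨W₁, hW₁c, hW₁⟩ := exists_roots hm he0
  choose! W₂ hW₂c hW₂ using fun (u : ℂ) (hu : u ≠ 0) => exists_roots hN hu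
  -- the perturbed branched map and its zeros
  set k : ℂ → ℂ := fun z => wpow R m z - e
  set Ψ : E × ℂ → E × ℂ := fun q =>
    ((g (q.1, wpow R (m * p) q.2)).1, k q.2 * (g (q.1, wpow R (m * p) q.2)).2) with hΨ
  have hRc : (R : ℂ) ≠ 0 := Complex.ofReal_ne_zero.2 hR.ne'
  have hwRw : ∀ j (w : ℂ), wpow R j ((R : ℂ) * w) = w ^ j := fun j w => by
    rw [wpow, inv_mul_cancel_left₀ hRc]
  let P₁ : Finset (E × ℂ) := (X₁ ×ˢ W₁).image fun q => (q.1, (R : ℂ) * q.2)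
  let fib : E × ℂ → Finset (E × ℂ) := fun q => (W₂ q.2).image fun w => (q.1, (R : ℂ) * w)
  let P₂ : Finset (E × ℂ) := X₂.biUnion fib
  have hpow : ∀ z : ℂ, wpow R (m * p) z = (wpow R m z) ^ p := fun z => by
    rw [wpow, wpow, pow_mul]
  have hmem₁ : ∀ q, q ∈ P₁ ↔ (‖q.1‖ ≤ R ∧ (g (q.1, u₀)).1 = 0) ∧ wpow R m q.2 = e := by
    intro q
    simp only [P₁, Finset.mem_image, Finset.mem_product, hX₁, mem_closedBall_zero_iff, hW₁]
    constructor
    · rintro ⟨⟨x, w⟩, ⟨h, h'⟩, rfl⟩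
      exact ⟨h, by rw [hwRw]; exact h'⟩
    · rintro ⟨h, h'⟩
      exact ⟨(q.1, (R : ℂ)⁻¹ * q.2), ⟨h, h'⟩, by simp [mul_inv_cancel_left₀ hRc]⟩
  have hmem₂ : ∀ q, q ∈ P₂ ↔ (‖q.1‖ ≤ R ∧ ‖wpow R (m * p) q.2‖ ≤ 1) ∧
      g (q.1, wpow R (m * p) q.2) = 0 := by
    intro q
    simp only [P₂, fib, Finset.mem_biUnion, Finset.mem_image]
    constructor
    · rintro ⟨⟨x, u⟩, hxu, w, hw, rfl⟩
      rw [hX₂] at hxu
      rw [hW₂ u (hg_u x u hxu.2).1] at hw
      simp only [hwRw, hw]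
      exact hxu
    · intro h
      refine ⟨(q.1, wpow R (m * p) q.2), (hX₂ _).2 h, (R : ℂ)⁻¹ * q.2, ?_,
        by simp [mul_inv_cancel_left₀ hRc]⟩
      rw [hW₂ _ (hg_u _ _ h.2).1]
      rfl
  have hdisj : Disjoint P₁ P₂ := by
    rw [Finset.disjoint_left]
    intro q h h'
    rw [hmem₁] at h
    rw [hmem₂] at h'
    exact (hg_u _ _ h'.2).2 (by rw [hpow, h.2])
  have hzeros : ∀ q, q ∈ P₁ ∪ P₂ ↔ q ∈ closedBall (0 : E × ℂ) R ∧ Ψ q = 0 := by
    intro q
    rw [Finset.mem_union, hmem₁, hmem₂, mem_closedBall_zero_iff, Prod.norm_def, max_le_iff]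
    have hle : ∀ {j}, 0 < j → (‖q.2‖ ≤ R ↔ ‖wpow R j q.2‖ ≤ 1) := fun {j} hj => by
      rw [norm_wpow hR, pow_le_one_iff_of_nonneg (by positivity) hj.ne', div_le_one hR]
    constructor
    · rintro (⟨⟨h1, h2⟩, h3⟩ | ⟨⟨h1, h2⟩, h3⟩)
      · refine ⟨⟨h1, (hle hm).2 (h3 ▸ he1.le)⟩, Prod.ext ?_ ?_⟩
        · simp only [hΨ, hpow, h3]; exact h2
        · simp [hΨ, k, h3]
      · exact ⟨⟨h1, (hle hN).2 h2⟩, Prod.ext (by simp [hΨ, h3]) (by simp [hΨ, h3])⟩
    · rintro ⟨⟨h1, h2⟩, h3⟩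
      have h3a := congrArg Prod.fst h3
      have h3b := congrArg Prod.snd h3
      simp only [hΨ, Prod.fst_zero, Prod.snd_zero, mul_eq_zero] at h3a h3b
      rcases h3b with h4 | h4
      · have h5 : wpow R m q.2 = e := sub_eq_zero.1 h4
        rw [hpow, h5] at h3a
        exact Or.inl ⟨⟨h1, h3a⟩, h5⟩
      · exact Or.inr ⟨⟨h1, (hle hN).1 h2⟩, Prod.ext h3a h4⟩
  -- derivatives
  have hkd : ∀ z, HasFDerivAt k
      (cmul ((m : ℂ) * ((R : ℂ)⁻¹ * z) ^ (m - 1) * (R : ℂ)⁻¹)) z := fun z => by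
    simpa [k] using (hasFDerivAt_wpow m z).sub_const e
  let cN : ℂ → ℂ := fun z => ((m * p : ℕ) : ℂ) * ((R : ℂ)⁻¹ * z) ^ (m * p - 1) * (R : ℂ)⁻¹
  have hπd : ∀ q : E × ℂ, HasFDerivAt (fun q : E × ℂ => g (q.1, wpow R (m * p) q.2))
      ((fderiv ℝ G (q.1, wpow R (m * p) q.2)).comp
        ((ContinuousLinearMap.id ℝ E).prodMap (cmul (cN q.2)))) q := fun q => by
    refine (hgd _).comp q ?_
    exact hasFDerivAt_fst.prodMk ((hasFDerivAt_wpow (m * p) q.2).comp q hasFDerivAt_snd)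
  have hΨd : ∀ q : E × ℂ, HasFDerivAt Ψ
      (((ContinuousLinearMap.fst ℝ E ℂ).comp ((fderiv ℝ G (q.1, wpow R (m * p) q.2)).comp
          ((ContinuousLinearMap.id ℝ E).prodMap (cmul (cN q.2))))).prod
        (k q.2 • (ContinuousLinearMap.snd ℝ E ℂ).comp ((fderiv ℝ G (q.1, wpow R (m * p) q.2)).comp
            ((ContinuousLinearMap.id ℝ E).prodMap (cmul (cN q.2))))
          + (g (q.1, wpow R (m * p) q.2)).2 •
            (cmul ((m : ℂ) * ((R : ℂ)⁻¹ * q.2) ^ (m - 1) * (R : ℂ)⁻¹)).comp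
              (ContinuousLinearMap.snd ℝ E ℂ))) q := fun q =>
    ((ContinuousLinearMap.fst ℝ E ℂ).hasFDerivAt.comp q (hπd q)).prodMk
      (((hkd q.2).comp q hasFDerivAt_snd).mul
        ((ContinuousLinearMap.snd ℝ E ℂ).hasFDerivAt.comp q (hπd q)))
  have hwne : ∀ {j} {z : ℂ}, wpow R j z ≠ 0 → j ≠ 0 → (R : ℂ)⁻¹ * z ≠ 0 := by
    intro j z h hj h0
    exact h (by rw [wpow, h0, zero_pow hj])
  have hsign₂ : ∀ q ∈ P₂, RegularAt Ψ q ∧
      dsign Ψ q = dsign g (q.1, wpow R (m * p) q.2) := by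
    intro q hq
    rw [hmem₂] at hq
    set Q : E × ℂ := (q.1, wpow R (m * p) q.2) with hQ
    obtain ⟨hu0, hu1⟩ := hg_u q.1 _ hq.2
    have hk : k q.2 ≠ 0 := fun h => hu1 (by rw [hpow, sub_eq_zero.1 h])
    have hc : cN q.2 ≠ 0 := mul_ne_zero (mul_ne_zero (Nat.cast_ne_zero.2 hN.ne')
      (pow_ne_zero _ (hwne hu0 hN.ne'))) (inv_ne_zero hRc)
    have hd := hΨd q
    set L := ((ContinuousLinearMap.id ℝ E).prodMap (cmul (k q.2))).comp
      ((fderiv ℝ G Q).comp ((ContinuousLinearMap.id ℝ E).prodMap (cmul (cN q.2))))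
    have hd' : HasFDerivAt Ψ L q := by
      refine hd.congr_fderiv (ContinuousLinearMap.ext fun w => ?_)
      simp [L, Q, hq.2, Prod.map]
    have hdet : L.det = (Complex.normSq (k q.2) * Complex.normSq (cN q.2)) * (fderiv ℝ G Q).det := by
      have e1 : ∀ c : ℂ, ((ContinuousLinearMap.id ℝ E).prodMap (cmul c)).det = Complex.normSq c := by
        intro c
        rw [← det_cmul]
        simp only [ContinuousLinearMap.det, ContinuousLinearMap.coe_prodMap,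
          ContinuousLinearMap.coe_id, LinearMap.det_prodMap, LinearMap.det_id, one_mul]
      calc L.det = ((ContinuousLinearMap.id ℝ E).prodMap (cmul (k q.2))).det
            * ((fderiv ℝ G Q).det * ((ContinuousLinearMap.id ℝ E).prodMap (cmul (cN q.2))).det) := by
            simp only [L, ContinuousLinearMap.det, ContinuousLinearMap.toLinearMap_comp,
              LinearMap.det_comp]
        _ = _ := by rw [e1, e1]; ring
    have hpos : 0 < Complex.normSq (k q.2) * Complex.normSq (cN q.2) :=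
      mul_pos (Complex.normSq_pos.2 hk) (Complex.normSq_pos.2 hc)
    refine ⟨regularAt_of_det hd' (by
      rw [hdet]; exact mul_ne_zero hpos.ne' (hg_reg Q hq.2)), ?_⟩
    rw [dsign_comp_pos hd' hpos hdet, dsign, (hgd Q).fderiv]
  set s₀ : E → E := fun x => (g (x, u₀)).1 with hs₀
  have hsign₁ : ∀ q ∈ P₁, RegularAt Ψ q ∧ dsign Ψ q = dsign s₀ q.1 := by
    intro q hq
    rw [hmem₁] at hq
    have hQ : (q.1, wpow R (m * p) q.2) = (q.1, u₀) := by rw [hpow, hq.2]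
    have hk : k q.2 = 0 := sub_eq_zero.2 hq.2
    have hb2 : (g (q.1, u₀)).2 ≠ 0 := fun h => (hg_u q.1 u₀ (Prod.ext hq.1.2 h)).2 rfl
    have hc : (g (q.1, u₀)).2 * ((m : ℂ) * ((R : ℂ)⁻¹ * q.2) ^ (m - 1) * (R : ℂ)⁻¹) ≠ 0 :=
      mul_ne_zero hb2 (mul_ne_zero (mul_ne_zero (Nat.cast_ne_zero.2 hm.ne')
        (pow_ne_zero _ (hwne (hq.2.symm ▸ he0) hm.ne'))) (inv_ne_zero hRc))
    set A := (ContinuousLinearMap.fst ℝ E ℂ).comp
      ((fderiv ℝ G (q.1, u₀)).comp (ContinuousLinearMap.inl ℝ E ℂ))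
    set L := ((A.comp (ContinuousLinearMap.fst ℝ E ℂ))
      + ((ContinuousLinearMap.fst ℝ E ℂ).comp ((fderiv ℝ G (q.1, u₀)).comp
          ((ContinuousLinearMap.inr ℝ E ℂ).comp (cmul (cN q.2))))).comp
        (ContinuousLinearMap.snd ℝ E ℂ)).prod
      ((cmul ((g (q.1, u₀)).2 * ((m : ℂ) * ((R : ℂ)⁻¹ * q.2) ^ (m - 1) * (R : ℂ)⁻¹))).comp
        (ContinuousLinearMap.snd ℝ E ℂ))
    have hd' : HasFDerivAt Ψ L q := by
      refine (hΨd q).congr_fderiv (ContinuousLinearMap.ext fun w => ?_)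
      rw [hQ]
      have : (w.1, cN q.2 * w.2) = (w.1, (0 : ℂ)) + ((0 : E), cN q.2 * w.2) := by simp
      simp [L, A, hk, smul_eq_mul, mul_assoc, Prod.map]
      rw [this, map_add, Prod.fst_add]
    have hdet : L.det = Complex.normSq
        ((g (q.1, u₀)).2 * ((m : ℂ) * ((R : ℂ)⁻¹ * q.2) ^ (m - 1) * (R : ℂ)⁻¹)) * A.det := by
      rw [det_triangular, det_cmul, mul_comm]
    refine ⟨regularAt_of_det hd' (by
      rw [hdet]; exact mul_ne_zero (Complex.normSq_pos.2 hc).ne' (hs_reg _ hq.1.2)), ?_⟩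
    rw [dsign_comp_pos hd' (Complex.normSq_pos.2 hc) hdet, dsign, (hs₀g q.1).fderiv]
  have hkc : Continuous k := by simp only [k, wpow]; fun_prop
  have hwc : ∀ j, Continuous (wpow R j) := fun j => by unfold wpow; fun_prop
  have hΨc : Continuous Ψ := by simp only [hΨ]; fun_prop
  have hadm : Adm (0 : E × ℂ) R Ψ (P₁ ∪ P₂) := ⟨hΨc.continuousOn, hzeros, fun q hq =>
    (Finset.mem_union.1 hq).elim (fun h => (hsign₁ q h).1) fun h => (hsign₂ q h).1⟩
  have hadm₁ : Adm (0 : E) R s₀ X₁ := ⟨hac.continuousOn, hX₁, fun x hx =>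
    regularAt_of_det (hs₀g x) (hs_reg x ((hX₁ x).1 hx).2)⟩
  have hsum₁ : ∑ q ∈ P₁, dsign Ψ q = (m : ℤ) * ∑ x ∈ X₁, dsign s₀ x := by
    rw [Finset.sum_congr rfl fun q hq => (hsign₁ q hq).2, Finset.sum_image (fun q _ r _ h => by
      simp only [Prod.mk.injEq, mul_eq_mul_left_iff, hRc, or_false] at h
      exact Prod.ext h.1 h.2), Finset.sum_product, Finset.mul_sum]
    refine Finset.sum_congr rfl fun x _ => ?_
    simp [hW₁c]
  have hsum₂ : ∑ q ∈ P₂, dsign Ψ q = ((m * p : ℕ) : ℤ) * ∑ q ∈ X₂, dsign g q := by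
    rw [Finset.sum_congr rfl fun q hq => (hsign₂ q hq).2]
    simp only [P₂]
    rw [Finset.sum_biUnion ?_, Finset.mul_sum]
    · refine Finset.sum_congr rfl fun Q hQ => ?_
      obtain ⟨x, u⟩ := Q
      have hu := (hg_u x u ((hX₂ _).1 hQ).2).1
      simp only [fib]
      rw [Finset.sum_image (fun w _ w' _ h => by
        simpa [mul_eq_mul_left_iff, hRc] using h)]
      rw [Finset.sum_congr rfl fun w hw => show _ = dsign g (x, u) by
        rw [hwRw, (hW₂ u hu w).1 hw]]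
      simp [hW₂c u hu]
    · intro Q hQ Q' hQ' hne
      rw [Function.onFun, Finset.disjoint_left]
      intro q h h'
      simp only [fib, Finset.mem_image] at h h'
      obtain ⟨w, hw, rfl⟩ := h
      obtain ⟨w', hw', h''⟩ := h'
      simp only [Prod.mk.injEq, mul_eq_mul_left_iff, hRc, or_false] at h''
      obtain ⟨h1, rfl⟩ := h''
      rw [hW₂ _ (hg_u _ _ ((hX₂ _).1 hQ).2).1] at hw
      rw [hW₂ _ (hg_u _ _ ((hX₂ _).1 hQ').2).1] at hw'
      exact hne (Prod.ext h1.symm (hw.symm.trans hw'))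
  -- homotopies of the boundary values
  have hmix : ∀ t ∈ Icc (0 : ℝ) 1, ∀ q, ‖((1 - t) • (a q, b q) + t • g q) - (a q, b q)‖ ≤ 2 * ε := by
    intro t ht q
    rw [show ((1 - t) • (a q, b q) + t • g q) - (a q, b q) = t • (g q - (a q, b q)) by module, norm_smul, Real.norm_eq_abs, abs_of_nonneg ht.1]
    exact (mul_le_of_le_one_left (norm_nonneg _) ht.2).trans (hgnear q)
  let mix : ℝ → E × ℂ → E × ℂ := fun t q => (1 - t) • (a q, b q) + t • g q
  have hmixc : Continuous fun q : ℝ × (E × ℂ) => mix q.1 q.2 := by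
    simp only [mix]; fun_prop
  have hmixa : ∀ t ∈ Icc (0 : ℝ) 1, ∀ x ∈ sphere (0 : E) R, ∀ u : ℂ, ‖u‖ ≤ 1 →
      (mix t (x, u)).1 ≠ 0 := by
    intro t ht x hx u hu h
    have h3 := (norm_fst_le _).trans (hmix t ht (x, u))
    change ‖(mix t (x, u)).1 - a (x, u)‖ ≤ _ at h3
    rw [h, zero_sub, norm_neg] at h3
    linarith [h₂ (x, u) ⟨hx, mem_closedBall_zero_iff.2 hu⟩]
  have hdegΨ : deg (0 : E × ℂ) R (branched R m p a b) = deg (0 : E × ℂ) R Ψ := by
    let H : ℝ → E × ℂ → E × ℂ := fun t q => ((mix t (q.1, wpow R (m * p) q.2)).1,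
      (wpow R m q.2 - t • e) * (mix t (q.1, wpow R (m * p) q.2)).2)
    have hHc : Continuous fun q : ℝ × (E × ℂ) => H q.1 q.2 := by
      have h1 : Continuous fun q : ℝ × (E × ℂ) => mix q.1 (q.2.1, wpow R (m * p) q.2.2) :=
        hmixc.comp (continuous_fst.prodMk ((continuous_fst.comp continuous_snd).prodMk
          ((hwc _).comp (continuous_snd.comp continuous_snd))))
      exact (continuous_fst.comp h1).prodMk ((((hwc m).comp (continuous_snd.comp
        continuous_snd)).sub (continuous_fst.smul continuous_const)).mul (continuous_snd.comp h1))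
    have h0 : branched R m p a b = H 0 := by funext q; simp [H, mix, branched]
    have h1 : Ψ = H 1 := by funext q; simp [H, mix, hΨ, k]
    rw [h0, h1]
    refine deg_homotopy hHc.continuousOn fun t ht q hq h => ?_
    obtain ⟨hx, hz, hcase⟩ := sphere_prod_cases hq
    have hw1 : ‖wpow R (m * p) q.2‖ ≤ 1 := by
      rw [norm_wpow hR]; exact pow_le_one₀ (by positivity) ((div_le_one hR).2 hz)
    have ha' := congrArg Prod.fst h
    rcases hcase with hxS | hzS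
    · exact hmixa t ht q.1 hxS _ hw1 ha'
    have hu : ‖wpow R (m * p) q.2‖ = 1 := by rw [norm_wpow hR, hzS, div_self hR.ne', one_pow]
    have hk : wpow R m q.2 - t • e ≠ 0 := fun h0 => by
      have : ‖wpow R m q.2‖ ≤ ‖e‖ := by
        rw [sub_eq_zero.1 h0, norm_smul, Real.norm_eq_abs, abs_of_nonneg ht.1]
        exact mul_le_of_le_one_left (norm_nonneg _) ht.2
      rw [norm_wpow hR, hzS, div_self hR.ne', one_pow] at this
      linarith
    have hb' := (mul_eq_zero.1 (congrArg Prod.snd h)).resolve_left hk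
    have h3 := hmix t ht (q.1, wpow R (m * p) q.2)
    change ‖mix t _ - _‖ ≤ _ at h3
    rw [show mix t (q.1, wpow R (m * p) q.2) = 0 from Prod.ext ha' hb', zero_sub, norm_neg] at h3
    linarith [h₁ (q.1, wpow R (m * p) q.2) ⟨hx, mem_sphere_zero_iff_norm.2 hu⟩]
  have hdega : deg (0 : E) R (fun x => a (x, 0)) = deg (0 : E) R s₀ := by
    let H : ℝ → E → E := fun t x => (mix t (x, t • u₀)).1
    have hHc : Continuous fun q : ℝ × E => H q.1 q.2 :=
      continuous_fst.comp (hmixc.comp (continuous_fst.prodMk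
        (continuous_snd.prodMk (continuous_fst.smul continuous_const))))
    have h0 : (fun x => a (x, 0)) = H 0 := by funext x; simp [H, mix]
    have h1 : s₀ = H 1 := by funext x; simp [H, mix, hs₀]
    rw [h0, h1]
    refine deg_homotopy hHc.continuousOn fun t ht x hx => hmixa t ht x hx _ ?_
    rw [norm_smul, Real.norm_eq_abs, abs_of_nonneg ht.1]
    exact mul_le_one₀ ht.2 (norm_nonneg _) hu₀1
  refine ⟨∑ q ∈ X₂, dsign g q, ?_⟩
  have hself : ∀ (F : E × ℂ → E × ℂ), (∀ q ∈ sphere (0 : E × ℂ) R, F q ≠ 0) →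
      SegNe (0 : E × ℂ) R F F := fun F h q hq t _ => by
    rw [← add_smul, sub_add_cancel, one_smul]; exact h q hq
  have hselfE : ∀ (F : E → E), (∀ q ∈ sphere (0 : E) R, F q ≠ 0) →
      SegNe (0 : E) R F F := fun F h q hq t _ => by
    rw [← add_smul, sub_add_cancel, one_smul]; exact h q hq
  have hΨne : ∀ q ∈ sphere (0 : E × ℂ) R, Ψ q ≠ 0 := fun q hq h => by
    have hq' : q ∈ P₁ ∪ P₂ := (hzeros q).2 ⟨sphere_subset_closedBall hq, h⟩
    obtain ⟨hx, hz, hcase⟩ := sphere_prod_cases hq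
    rcases Finset.mem_union.1 hq' with h' | h'
    · rw [hmem₁] at h'
      rcases hcase with hxS | hzS
      · have := hmixa 1 (right_mem_Icc.2 zero_le_one) q.1 hxS u₀ hu₀1
        simp [mix, h'.1.2] at this
      · have : ‖wpow R m q.2‖ = 1 := by rw [norm_wpow hR, hzS, div_self hR.ne', one_pow]
        rw [h'.2] at this; linarith
    · rw [hmem₂] at h'
      rcases hcase with hxS | hzS
      · have := hmixa 1 (right_mem_Icc.2 zero_le_one) q.1 hxS _ h'.1.2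
        simp [mix, h'.2] at this
      · have hu : ‖wpow R (m * p) q.2‖ = 1 := by
          rw [norm_wpow hR, hzS, div_self hR.ne', one_pow]
        have h3 := hgnear (q.1, wpow R (m * p) q.2)
        rw [h'.2, zero_sub, norm_neg] at h3
        linarith [h₁ (q.1, wpow R (m * p) q.2) ⟨hx, mem_sphere_zero_iff_norm.2 hu⟩]
  have hsne : ∀ x ∈ sphere (0 : E) R, s₀ x ≠ 0 := fun x hx h => by
    have := hmixa 1 (right_mem_Icc.2 zero_le_one) x hx u₀ hu₀1
    simp [mix] at this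
    exact this h
  rw [hdegΨ, hdega, deg_eq hΨc.continuousOn hΨne hadm (hself _ hΨne),
    deg_eq hac.continuousOn hsne hadm₁ (hselfE _ hsne), Finset.sum_union hdisj, hsum₁, hsum₂]

end

end Vale.Agent.P228.Frac
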