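import Vale.Agent.P228.Frac.Newman

/-!
A fixed open ball cannot touch the closure of the moved set of a locally periodic action.
-/

namespace Vale.Agent.P228.Frac

open Metric Set Function Filter
open scoped Topology RealInnerProductSpace Pointwise

noncomputable section

variable {E : Type*} [NormedAddCommGroup E] [InnerProductSpace ℝ E]

/-- the coordinate bent in the direction `e` -/
def bend (s : ℝ) (e w : E) : E := w + (s⁻¹ * ‖w‖ ^ 2) • e

lemma continuous_bend (s : ℝ) (e : E) : Continuous (bend s e) := by unfold bend; fun_prop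

lemma bend_zero (s : ℝ) (e : E) : bend s e 0 = 0 := by simp [bend]

variable {s : ℝ} {e : E}

lemma bend_diff (hs : 0 < s) (he : ‖e‖ = 1) (a b : E) :
    ‖(bend s e a - bend s e b) - (a - b)‖ ≤ s⁻¹ * (‖a‖ + ‖b‖) * ‖a - b‖ := by
  have : (bend s e a - bend s e b) - (a - b) = (s⁻¹ * (‖a‖ ^ 2 - ‖b‖ ^ 2)) • e := by
    simp only [bend, mul_sub, sub_smul]; abel
  rw [this, norm_smul, he, mul_one, Real.norm_eq_abs, abs_mul, abs_inv, abs_of_pos hs, mul_assoc]
  refine mul_le_mul_of_nonneg_left ?_ (by positivity)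
  rw [show ‖a‖ ^ 2 - ‖b‖ ^ 2 = (‖a‖ + ‖b‖) * (‖a‖ - ‖b‖) by ring, abs_mul,
    abs_of_nonneg (by positivity)]
  exact mul_le_mul_of_nonneg_left (abs_norm_sub_norm_le a b) (by positivity)

lemma bend_lipschitz (hs : 0 < s) (he : ‖e‖ = 1) (r : ℝ) :
    ∃ L, LipschitzOnWith L (bend s e) (closedBall (0 : E) r) :=
  ⟨Real.toNNReal (1 + s⁻¹ * (2 * r)), LipschitzOnWith.of_dist_le_mul fun a ha b hb => by
    rw [mem_closedBall, dist_zero_right] at ha hb
    have hr0 : 0 ≤ r := (norm_nonneg a).trans ha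
    rw [dist_eq_norm, dist_eq_norm, Real.coe_toNNReal _ (by positivity)]
    calc ‖bend s e a - bend s e b‖
        ≤ ‖a - b‖ + ‖(bend s e a - bend s e b) - (a - b)‖ := norm_le_norm_add_norm_sub' _ _
      _ ≤ ‖a - b‖ + s⁻¹ * (2 * r) * ‖a - b‖ := by
          gcongr
          refine (bend_diff hs he a b).trans ?_
          gcongr
          linarith
      _ = _ := by ring⟩

lemma bend_inj (hs : 0 < s) (he : ‖e‖ = 1) {a b : E} (hab : ‖a‖ + ‖b‖ < s)
    (h : bend s e a = bend s e b) : a = b := by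
  have h1 := bend_diff hs he a b
  rw [h, sub_self, zero_sub, norm_neg] at h1
  have h2 : s⁻¹ * (‖a‖ + ‖b‖) < 1 := by
    rw [inv_mul_lt_iff₀ hs, mul_one]; exact hab
  by_contra hne
  have : 0 < ‖a - b‖ := norm_pos_iff.2 (sub_ne_zero.2 hne)
  nlinarith

lemma norm_bend_le (hs : 0 < s) (he : ‖e‖ = 1) {a : E} (ha : ‖a‖ ≤ s) :
    ‖bend s e a‖ ≤ 2 * ‖a‖ := by
  refine (norm_add_le _ _).trans ?_
  rw [norm_smul, he, mul_one, Real.norm_eq_abs, abs_of_nonneg (by positivity)]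
  have : s⁻¹ * ‖a‖ ^ 2 ≤ ‖a‖ := by rw [inv_mul_le_iff₀ hs]; nlinarith [norm_nonneg a]
  linarith

/-- outside the ball with diameter on the axis, the bent coordinate points upwards -/
lemma bend_pos (hs : 0 < s) (he : ‖e‖ = 1) {w : E} (hw : s ≤ ‖w + s • e‖) (hw0 : w ≠ 0) :
    0 < ⟪e, bend s e w⟫ := by
  have h2 : s ^ 2 ≤ ‖w + s • e‖ ^ 2 := pow_le_pow_left₀ hs.le hw 2
  rw [norm_add_sq_real, real_inner_smul_right, norm_smul, he, mul_one, Real.norm_eq_abs,
    abs_of_pos hs, real_inner_comm] at h2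
  have h3 : ⟪e, bend s e w⟫ = ⟪e, w⟫ + s⁻¹ * ‖w‖ ^ 2 := by
    simp only [bend, inner_add_right, real_inner_smul_right, real_inner_self_eq_norm_sq, he,
      one_pow, mul_one]
  have h4 : 0 < ‖w‖ ^ 2 := by positivity
  have h5 : s⁻¹ * ‖w‖ ^ 2 * s = ‖w‖ ^ 2 := by field_simp
  rw [h3]
  nlinarith

variable [FiniteDimensional ℝ E]

lemma bend_regular (hs : 0 < s) (he : ‖e‖ = 1) {x : E} (hx : 2 * ‖x‖ < s) :
    ∃ L : E ≃L[ℝ] E, HasStrictFDerivAt (bend s e) (L : E →L[ℝ] E) x := by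
  set D := ContinuousLinearMap.id ℝ E + (s⁻¹ • 2 • innerSL ℝ x).smulRight e with hD
  have hd : HasStrictFDerivAt (bend s e) D x := (hasStrictFDerivAt_id (𝕜 := ℝ) x).add
    (((hasStrictFDerivAt_norm_sq x).const_mul s⁻¹).smul_const e)
  have hdet : D.det ≠ 0 := by
    intro h0
    have := LinearMap.bot_lt_ker_of_det_eq_zero h0
    obtain ⟨v, hv, hv0⟩ := Submodule.exists_mem_ne_zero_of_ne_bot this.ne'
    have hv' : v + (s⁻¹ * (2 * ⟪x, v⟫)) • e = 0 := by
      simpa [hD, two_nsmul, two_mul, mul_add] using hv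
    have h1 : ‖v‖ ≤ s⁻¹ * (2 * (‖x‖ * ‖v‖)) := by
      conv_lhs => rw [eq_neg_of_add_eq_zero_left hv']
      rw [norm_neg, norm_smul, he, mul_one, Real.norm_eq_abs, abs_mul, abs_inv, abs_of_pos hs,
        abs_mul, abs_two]
      gcongr
      exact abs_real_inner_le_norm x v
    have hvp : 0 < ‖v‖ := norm_pos_iff.2 hv0
    rw [le_inv_mul_iff₀ hs] at h1
    nlinarith
  exact ⟨D.toContinuousLinearEquivOfDetNeZero hdet, by simpa using hd⟩

/-- homothety -/
def dil (w : E) (l : ℝ) (z : E) : E := w + l • (z - w)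

omit [FiniteDimensional ℝ E] in
lemma dil_inv_left (w : E) {l : ℝ} (hl : l ≠ 0) (z : E) : dil w l⁻¹ (dil w l z) = z := by
  simp [dil, smul_smul, inv_mul_cancel₀ hl]

omit [FiniteDimensional ℝ E] in
lemma dil_inv_right (w : E) {l : ℝ} (hl : l ≠ 0) (z : E) : dil w l (dil w l⁻¹ z) = z := by
  simp [dil, smul_smul, mul_inv_cancel₀ hl]

/-- the parameter of the homothety -/
def lam (t : ℝ) : ℝ := 1 / 4 + 3 * clamp t / 4

lemma lam_mem (t : ℝ) : lam t ∈ Icc (1 / 4 : ℝ) 1 :=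
  ⟨by unfold lam; linarith [(clamp_mem t).1], by unfold lam; linarith [(clamp_mem t).2]⟩

lemma lam_pos (t : ℝ) : 0 < lam t := lt_of_lt_of_le (by norm_num) (lam_mem t).1

lemma continuous_lam : Continuous lam := by
  have := continuous_clamp; unfold lam; fun_prop

lemma lam_zero : lam 0 = 1 / 4 := by simp [lam, clamp]

lemma lam_one : lam 1 = 1 := by norm_num [lam, clamp]

omit [FiniteDimensional ℝ E] in
lemma continuous_dil (w : E) : Continuous fun q : E × ℝ => dil w (lam q.2) q.1 := by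
  have := continuous_lam; unfold dil; fun_prop

omit [FiniteDimensional ℝ E] in
lemma continuous_dil_inv (w : E) : Continuous fun q : E × ℝ => dil w (lam q.2)⁻¹ q.1 := by
  have h2 : Continuous fun q : E × ℝ => (lam q.2)⁻¹ :=
    (continuous_lam.comp continuous_snd).inv₀ fun q => (lam_pos q.2).ne'
  exact continuous_const.add (h2.smul (continuous_fst.sub continuous_const))

omit [FiniteDimensional ℝ E] in
lemma continuousOn_gen {g : E → E} {S B : Set E} (hg : ContinuousOn g S) (w : E)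
    (hw : ∀ x ∈ B, ∀ τ, dil w (lam τ) x ∈ B) (hBS : B ⊆ S) :
    ContinuousOn (uncurry fun x t => dil w (lam t)⁻¹ (g (dil w (lam t) x)))
      (B ×ˢ (univ : Set ℝ)) :=
  (continuous_dil_inv w).comp_continuousOn
    (f := fun q : E × ℝ => (g (dil w (lam q.2) q.1), q.2))
    ((hg.comp (continuous_dil w).continuousOn fun q hq => hBS (hw q.1 hq.1 q.2)).prodMk
      continuousOn_snd)

omit [FiniteDimensional ℝ E] in
lemma continuousOn_pathP {F : ℕ → E → E} {H : E → ℝ → E} {S B : Set E}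
    (hF : ∀ i, ContinuousOn (F i) S) (x₀ : E → E) (hx₀ : ContinuousOn x₀ B)
    (hx₀S : ∀ x ∈ B, x₀ x ∈ S) (hH : ContinuousOn (uncurry H) (B ×ˢ (univ : Set ℝ)))
    (hHS : ∀ x ∈ B, ∀ r, H x r ∈ S) (N : ℕ) :
    ContinuousOn (uncurry (pathP F H x₀ N)) (B ×ˢ (univ : Set ℝ)) := by
  simp only [pathP, uncurry_def]
  refine (hx₀.comp continuousOn_fst fun q hq => hq.1).add
    (continuousOn_finsetSum _ fun i _ => ?_)
  refine ((hF i).comp ?_ fun q hq => hHS q.1 hq.1 _).sub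
    ((hF i).comp (hx₀.comp continuousOn_fst fun q hq => hq.1) fun q hq => hx₀S q.1 hq.1)
  exact hH.comp (continuous_fst.prodMk (continuous_clamp.comp (by fun_prop))).continuousOn
    fun q hq => ⟨hq.1, mem_univ _⟩

omit [FiniteDimensional ℝ E] in
lemma continuousOn_conj (w : E) {P : E → ℝ → E} {B : Set E}
    (hP : ContinuousOn (uncurry P) (B ×ˢ (univ : Set ℝ)))
    (hw : ∀ x ∈ B, ∀ τ, dil w (lam τ) x ∈ B) :
    ContinuousOn (uncurry fun (q : ℝ × E) t => dil w (lam q.1)⁻¹ (P (dil w (lam q.1) q.2) t))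
      (((univ : Set ℝ) ×ˢ B) ×ˢ (univ : Set ℝ)) := by
  refine (continuous_dil_inv w).comp_continuousOn
    (f := fun q : (ℝ × E) × ℝ => (P (dil w (lam q.1.1) q.1.2) q.2, q.1.1))
    (ContinuousOn.prodMk ?_ (continuous_fst.comp continuous_fst).continuousOn)
  exact hP.comp (f := fun q : (ℝ × E) × ℝ => (dil w (lam q.1.1) q.1.2, q.2))
    (((continuous_dil w).comp (f := fun q : (ℝ × E) × ℝ => (q.1.2, q.1.1))
      (by fun_prop)).prodMk continuous_snd).continuousOn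
    fun q hq => ⟨hw _ hq.1.2 _, mem_univ _⟩

variable [MeasurableSpace E] [BorelSpace E]
variable {K : Type*} [CommGroup K] [TopologicalSpace K] [IsTopologicalGroup K] [CompactSpace K]
  [T2Space K]

omit [MeasurableSpace E] [BorelSpace E] [IsTopologicalGroup K] [T2Space K] in
lemma exists_equi {f : K → E → E} {R : ℝ} (hf : IsLocalAction f 0 R) (hR : 0 < R)
    (h0 : ∀ k, f k 0 = 0) {a : ℝ} (ha : 0 < a) :
    ∃ b > 0, b ≤ R ∧ ∀ k x, ‖x‖ ≤ b → ‖f k x‖ < a := by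
  have h0B : (0 : E) ∈ closedBall (0 : E) R := mem_closedBall_self hR.le
  have : ∀ᶠ x in 𝓝 (0 : E), ∀ k ∈ (univ : Set K), ‖f k x‖ < a := by
    refine isCompact_univ.eventually_forall_of_forall_eventually fun k _ => ?_
    have h1 := (hf.cont (k, 0) ⟨mem_univ _, h0B⟩).continuousAt
      (prod_mem_nhds univ_mem (closedBall_mem_nhds _ hR))
    have h2 : ∀ᶠ q in 𝓝 (k, (0 : E)), ‖uncurry f q‖ < a :=
      h1.norm.eventually_lt_const (by simp [h0 k, ha])
    have h3 : Tendsto (fun q : E × K => (q.2, q.1)) (𝓝 (0, k)) (𝓝 (k, 0)) :=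
      (continuous_snd.prodMk continuous_fst).tendsto _
    exact h3.eventually h2
  obtain ⟨b, hb, hb'⟩ := Metric.eventually_nhds_iff.1 this
  refine ⟨min (b / 2) R, by positivity, min_le_right _ _, fun k x hx => hb' ?_ k (mem_univ _)⟩
  rw [dist_zero_right]
  linarith [min_le_left (b / 2) R]

omit [MeasurableSpace E] [BorelSpace E] [IsTopologicalGroup K] [CompactSpace K] [T2Space K] in
lemma Tame.mono {f : K → E → E} {c : E} {R : ℝ} {S T : Set E} (h : Tame f c R S) (hT : T ⊆ S) :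
    Tame f c R T := by
  obtain ⟨θ, D, h1, h2, h3, h4, h5⟩ := h
  exact ⟨θ, D, h1, h2, h3, hT.trans h4, h5⟩

/-- points outside the open ball with diameter on the axis, other than the origin -/
def Above (s : ℝ) (e z : E) : Prop := s ≤ ‖z + s • e‖ ∧ z ≠ 0

omit [MeasurableSpace E] [BorelSpace E] [FiniteDimensional ℝ E] [IsTopologicalGroup K]
  [CompactSpace K] [T2Space K] in
lemma fixed_of_not_above {f : K → E → E} {R : ℝ} (h0 : ∀ k, f k 0 = 0)
    (hfixball : ∀ x ∈ ball (-(s • e)) s, x ∈ closedBall 0 R → ∀ k, f k x = x) :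
    ∀ z ∈ closedBall (0 : E) R, ¬ Above s e z → ∀ k, f k z = z := by
  intro z hz hG k
  by_cases hz0 : z = 0
  · rw [hz0]; exact h0 k
  · refine hfixball z (mem_ball.2 ?_) hz k
    rw [dist_eq_norm, sub_neg_eq_add]
    exact not_le.1 fun h => hG ⟨h, hz0⟩

omit [MeasurableSpace E] [BorelSpace E] [FiniteDimensional ℝ E] [IsTopologicalGroup K]
  [CompactSpace K] [T2Space K] in
lemma above_map {f : K → E → E} {R : ℝ} (hf : IsLocalAction f 0 R) (h0 : ∀ k, f k 0 = 0)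
    (hfixball : ∀ x ∈ ball (-(s • e)) s, x ∈ closedBall 0 R → ∀ k, f k x = x) (l : K) (z : E)
    (hz : z ∈ closedBall (0 : E) R) (hlz : f l z ∈ closedBall (0 : E) R) (hG : Above s e z) :
    Above s e (f l z) := by
  by_contra hG'
  have h1 := hf.inv_apply l hz hlz
  rw [fixed_of_not_above h0 hfixball _ hlz hG' l⁻¹] at h1
  exact hG' (h1.symm ▸ hG)

/-- the periodic homotopy of loops obtained by shrinking towards the fixed ball -/
lemma exists_scaled {f : K → E → E} {R : ℝ} (hf : IsLocalAction f 0 R) {p : ℕ} {h : K}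
    (C : Procyclic K p h) (hR : 0 < R) (h0 : ∀ k, f k 0 = 0)
    (hper : ∃ V ∈ 𝓝 (1 : K), ∀ᶠ x in 𝓝 (0 : E), ∀ l ∈ V, f l x = x)
    (hs : 0 < s) (he : ‖e‖ = 1)
    (hfixball : ∀ x ∈ ball (-(s • e)) s, x ∈ closedBall 0 R → ∀ k, f k x = x)
    {R' : ℝ} (hR'0 : 0 < R') (hR'R : R' ≤ R / 2) (hR's : R' ≤ s / 8) :
    ∃ (R₀ : ℝ) (b : ℕ) (H : E → ℝ → E) (Z : ℝ × E → ℝ → E), 0 < R₀ ∧ R₀ ≤ R' / 8 ∧
      ContinuousOn (uncurry H) (closedBall 0 R₀ ×ˢ Icc 0 1) ∧
      (∀ x ∈ closedBall (0 : E) R₀, H x 0 = 0 + x) ∧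
      (∀ x ∈ closedBall (0 : E) R₀, H x 1 = f h (0 + x)) ∧
      (∀ x ∈ closedBall (0 : E) R₀, ∀ r ∈ Icc (0 : ℝ) 1,
        H x r ∈ closedBall 0 R ∧ ∀ k, f k (H x r) ∈ closedBall 0 R) ∧
      ContinuousOn (uncurry Z) ((Icc 0 1 ×ˢ closedBall 0 R₀) ×ˢ Icc 0 1) ∧
      (∀ q ∈ Icc (0 : ℝ) 1 ×ˢ closedBall (0 : E) R₀, Z q 0 = Z q 1) ∧
      (∀ x ∈ closedBall (0 : E) R₀, ∀ τ, ∀ t ∈ Icc (0 : ℝ) 1, Z (τ, x) t ∈ closedBall 0 R' ∧
        (¬ Above s e x → Z (τ, x) t = x) ∧ (Above s e x → Above s e (Z (τ, x) t))) ∧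
      (∀ x ∈ closedBall (0 : E) R₀, ∀ t ∈ Icc (0 : ℝ) 1, Z (0, x) t = 0 + x) ∧
      (∀ x ∈ closedBall (0 : E) R₀, ∀ t : ℝ,
        Z (1, x) t = pathP (fun i => f (h ^ i)) H (fun x => 0 + x) (p ^ b * p) x t) := by
  have hGfix := fixed_of_not_above h0 hfixball
  have hGf := above_map hf h0 hfixball
  -- exact periodicity
  obtain ⟨V, hV, hVx⟩ := hper
  obtain ⟨b, hb⟩ := C.pow_small V hV
  obtain ⟨rV, hrV, hVfix⟩ := Metric.nhds_basis_closedBall.mem_iff.1 hVx
  have hN : p ^ b * p = p ^ (b + 1) := (pow_succ p b).symm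
  obtain ⟨u₁, hu₁, hu₁R, hKu₁⟩ := exists_equi hf hR h0 (show 0 < R' / 8 by positivity)
  obtain ⟨u₀, hu₀, -, hKu₀⟩ := exists_equi hf hR h0 (show 0 < u₁ / 8 by positivity)
  set u := min (min u₀ (u₁ / 8)) (min (R' / 8) rV) with hu_def
  have hu : 0 < u := by positivity
  have huu₀ : u ≤ u₀ := (min_le_left _ _).trans (min_le_left _ _)
  have huu₁ : u ≤ u₁ / 8 := (min_le_left _ _).trans (min_le_right _ _)
  have huR' : u ≤ R' / 8 := (min_le_right _ _).trans (min_le_left _ _)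
  have hurV : u ≤ rV := (min_le_right _ _).trans (min_le_right _ _)
  have hus : u ≤ s := by linarith
  set R₀ := u / 2 with hR₀
  have hR₀0 : 0 < R₀ := by positivity
  have hBR : ∀ {x : E} {r : ℝ}, ‖x‖ ≤ r → r ≤ R → x ∈ closedBall (0 : E) R := fun hx hr =>
    mem_closedBall_zero_iff.2 (hx.trans hr)
  set w₂ : E := -((u / 2) • e) with hw₂
  have hw₂n : ‖w₂‖ = R₀ := by
    rw [hw₂, norm_neg, norm_smul, he, mul_one, Real.norm_eq_abs, abs_of_pos (by positivity)]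
  have hw₂B : w₂ ∈ ball (-(s • e)) s := by
    have e1 : w₂ - -(s • e) = (s - u / 2) • e := by rw [sub_smul, hw₂]; abel
    rw [mem_ball, dist_eq_norm, e1, norm_smul, he, mul_one, Real.norm_eq_abs,
      abs_of_nonneg (by linarith)]
    linarith
  have hshrink : ∀ {z : E} {l : ℝ}, l ∈ Icc (1 / 4 : ℝ) 1 → ‖z‖ ≤ R₀ → ‖dil w₂ l z‖ ≤ R₀ := by
    intro z l hl hz
    refine mem_closedBall_zero_iff.1 ((convex_closedBall (0 : E) R₀).add_smul_sub_mem
      (mem_closedBall_zero_iff.2 hw₂n.le) (mem_closedBall_zero_iff.2 hz)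
      ⟨by linarith [hl.1], hl.2⟩)
  have hnotG : ∀ {z : E} {l : ℝ}, l ∈ Icc (1 / 4 : ℝ) 1 → ¬ Above s e z → ¬ Above s e (dil w₂ l z) := by
    intro z l hl hG ⟨hle, hne⟩
    by_cases hz0 : z = 0
    · subst hz0
      have e1 : dil w₂ l 0 + s • e = (s - (1 - l) * (u / 2)) • e := by
        simp only [dil, hw₂]; module
      have hl' : l < 1 := lt_of_le_of_ne hl.2 fun h => hne (by simp [dil, h])
      rw [e1, norm_smul, he, mul_one, Real.norm_eq_abs] at hle
      have h2 : 0 < (1 - l) * (u / 2) := by have := sub_pos.2 hl'; positivity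
      have h3 : (1 - l) * (u / 2) ≤ u / 2 := by nlinarith [hl.1]
      rw [abs_of_nonneg (by linarith)] at hle
      linarith
    · have hzB : z ∈ ball (-(s • e)) s := by
        rw [mem_ball, dist_eq_norm, sub_neg_eq_add]
        exact not_le.1 fun h => hG ⟨h, hz0⟩
      have := (convex_ball (-(s • e)) s).add_smul_sub_mem hw₂B hzB
        (show l ∈ Icc (0 : ℝ) 1 from ⟨by linarith [hl.1], hl.2⟩)
      rw [mem_ball, dist_eq_norm, sub_neg_eq_add] at this
      exact absurd hle (not_le.2 this)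
  have hexp : ∀ {z : E} {l a : ℝ}, l ∈ Icc (1 / 4 : ℝ) 1 → ‖z‖ ≤ a →
      ‖dil w₂ l⁻¹ z‖ ≤ 4 * a + 5 * R₀ := by
    intro z l a hl hz
    have hl0 : 0 < l := lt_of_lt_of_le (by norm_num) hl.1
    have h4 : l⁻¹ ≤ 4 := by rw [inv_le_comm₀ hl0 (by norm_num)]; linarith [hl.1]
    calc ‖dil w₂ l⁻¹ z‖ ≤ ‖w₂‖ + ‖l⁻¹ • (z - w₂)‖ := norm_add_le _ _
      _ ≤ R₀ + 4 * (a + R₀) := by
          rw [norm_smul, Real.norm_eq_abs, abs_of_pos (inv_pos.2 hl0), hw₂n]
          refine add_le_add_right (mul_le_mul h4 ?_ (norm_nonneg _) (by norm_num)) _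
          exact (norm_sub_le _ _).trans (by rw [hw₂n]; linarith)
      _ = 4 * a + 5 * R₀ := by ring
  have hG_exp : ∀ {z : E} {l : ℝ}, l ∈ Icc (1 / 4 : ℝ) 1 → Above s e z → Above s e (dil w₂ l⁻¹ z) := by
    intro z l hl hG
    by_contra hG'
    refine hnotG hl hG' ?_
    rw [dil_inv_right _ (ne_of_gt (lt_of_lt_of_le (by norm_num) hl.1))]
    exact hG
  -- the homotopy from the identity to the generator
  let H : E → ℝ → E := fun x t => dil w₂ (lam t)⁻¹ (f h (dil w₂ (lam t) x))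
  have hin : ∀ {x : E}, ‖x‖ ≤ R₀ → ∀ t k, ‖f k (dil w₂ (lam t) x)‖ < u₁ / 8 := fun hx t k =>
    hKu₀ k _ ((hshrink (lam_mem t) hx).trans (by linarith [hR₀]))
  have hHu₁ : ∀ {x : E}, ‖x‖ ≤ R₀ → ∀ t, ‖H x t‖ ≤ u₁ := fun hx t =>
    (hexp (lam_mem t) (hin hx t h).le).trans (by linarith [hR₀])
  have hfH : ∀ {x : E}, ‖x‖ ≤ R₀ → ∀ t k, ‖f k (H x t)‖ ≤ R' / 8 := fun hx t k =>
    (hKu₁ k _ (hHu₁ hx t)).le
  have hHfix : ∀ {x : E}, ‖x‖ ≤ R₀ → ∀ t, ¬ Above s e (dil w₂ (lam t) x) → H x t = x := by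
    intro x hx t hG
    simp only [H, hGfix _ (hBR (hshrink (lam_mem t) hx) (by linarith [hR₀] : R₀ ≤ R)) hG h]
    exact dil_inv_left _ (lam_pos t).ne' x
  have hHcase : ∀ {x : E}, ‖x‖ ≤ R₀ → ∀ t, Above s e (H x t) ∨ H x t = x := by
    intro x hx t
    by_cases hG : Above s e (dil w₂ (lam t) x)
    · exact Or.inl (hG_exp (lam_mem t) (hGf h _ (hBR (hshrink (lam_mem t) hx)
        (by linarith [hR₀] : R₀ ≤ R)) (hBR (hin hx t h).le (by linarith)) hG))
    · exact Or.inr (hHfix hx t hG)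
  have hlow : ∀ {x : E}, ‖x‖ ≤ R₀ → ¬ Above s e (dil w₂ (lam 0) x) := by
    rintro x hx ⟨hle, -⟩
    have e1 : dil w₂ (lam 0) x + s • e = (s - 3 * u / 8) • e + (1 / 4 : ℝ) • x := by
      simp only [lam_zero, dil, hw₂]
      module
    have h2 : ‖dil w₂ (lam 0) x + s • e‖ ≤ (s - 3 * u / 8) + 1 / 4 * ‖x‖ := by
      rw [e1]
      refine (norm_add_le _ _).trans ?_
      rw [norm_smul, norm_smul, he, mul_one, Real.norm_eq_abs, Real.norm_eq_abs,
        abs_of_nonneg (by linarith), abs_of_pos (by norm_num : (0 : ℝ) < 1 / 4)]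
    linarith [hR₀]
  have hH1 : ∀ x, H x 1 = f h x := fun x => by simp [H, lam_one, dil]
  -- the path
  set P := pathP (fun i => f (h ^ i)) H (fun x => 0 + x) (p ^ b * p)
  have hB : ∀ x ∈ closedBall (0 : E) R₀, (0 : E) + x ∈ closedBall (0 : E) R := fun x hx => by
    rw [zero_add]; exact closedBall_subset_closedBall (by linarith [hR₀]) hx
  have hH0 : ∀ x ∈ closedBall (0 : E) R₀, H x 0 = 0 + x := fun x hx => by
    rw [zero_add, hHfix (mem_closedBall_zero_iff.1 hx) 0 (hlow (mem_closedBall_zero_iff.1 hx))]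
  have hHR : ∀ {x : E}, ‖x‖ ≤ R₀ → ∀ t, H x t ∈ closedBall (0 : E) R := fun hx t =>
    hBR (hHu₁ hx t) hu₁R
  have hPeq : ∀ x ∈ closedBall (0 : E) R₀, ∀ t ≤ (1 : ℝ), ∀ (i : ℕ), ∀ r ∈ Icc (0 : ℝ) 1,
      ((p ^ b * p : ℕ) : ℝ) * t = i + r → P x t = f (h ^ i) (H x r) := by
    intro x hx t ht i r hr hti
    have hxn := mem_closedBall_zero_iff.1 hx
    refine pathP_eq (F := fun i => f (h ^ i)) ?_ (hH0 x hx) (fun j hj => ?_) ht hr hti
    · simp only [pow_zero]; exact hf.one _ (hB x hx)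
    · have h2 := hHR hxn 1
      simp only [hH1, zero_add] at h2 ⊢
      rw [← hf.mul _ h _ (hBR hxn (by linarith [hR₀])) h2, ← pow_succ]
  have hP : ∀ {x : E}, ‖x‖ ≤ R₀ → ∀ t ∈ Icc (0 : ℝ) 1,
      ‖P x t‖ ≤ R' / 8 ∧ (¬ Above s e x → P x t = x) ∧ (Above s e x → Above s e (P x t)) := by
    intro x hx t ht
    obtain ⟨i, r, hr, hti⟩ := exists_floor (N := p ^ b * p) ht
    rw [hPeq x (mem_closedBall_zero_iff.2 hx) t ht.2 i r hr hti]
    refine ⟨hfH hx r _, fun hG => ?_, fun hG => ?_⟩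
    · rw [hHfix hx r (hnotG (lam_mem r) hG)]
      exact hGfix x (hBR hx (by linarith [hR₀])) hG _
    · refine hGf _ _ (hHR hx r) (hBR (hfH hx r _) (by linarith)) ?_
      rcases hHcase hx r with h' | h'
      · exact h'
      · rw [h']; exact hG
  -- the homotopy
  let Z : ℝ × E → ℝ → E := fun q t => dil w₂ (lam q.1)⁻¹ (P (dil w₂ (lam q.1) q.2) t)
  have hZ : ∀ {x : E}, ‖x‖ ≤ R₀ → ∀ τ, ∀ t ∈ Icc (0 : ℝ) 1,
      ‖Z (τ, x) t‖ ≤ R' ∧ (¬ Above s e x → Z (τ, x) t = x) ∧ (Above s e x → Above s e (Z (τ, x) t)) ∧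
        (¬ Above s e (dil w₂ (lam τ) x) → Z (τ, x) t = x) := by
    intro x hx τ t ht
    obtain ⟨hn, hf1, hf2⟩ := hP (hshrink (lam_mem τ) hx) t ht
    have hfx : ¬ Above s e (dil w₂ (lam τ) x) → Z (τ, x) t = x := fun hG => by
      simp only [Z, hf1 hG]
      exact dil_inv_left _ (lam_pos τ).ne' x
    refine ⟨(hexp (lam_mem τ) hn).trans (by linarith [hR₀]),
      fun hG => hfx (hnotG (lam_mem τ) hG), fun hG => ?_, hfx⟩
    by_cases hy : Above s e (dil w₂ (lam τ) x)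
    · exact hG_exp (lam_mem τ) (hf2 hy)
    · rw [hfx hy]; exact hG
  -- continuity
  have hdilB : ∀ x ∈ closedBall (0 : E) R₀, ∀ τ, dil w₂ (lam τ) x ∈ closedBall (0 : E) R₀ :=
    fun x hx τ => mem_closedBall_zero_iff.2 (hshrink (lam_mem τ) (mem_closedBall_zero_iff.1 hx))
  have hHc : ContinuousOn (uncurry H) (closedBall 0 R₀ ×ˢ univ) :=
    continuousOn_gen (hf.cont_right h) w₂ hdilB
      (closedBall_subset_closedBall (by linarith [hR₀]))
  have hPc : ContinuousOn (uncurry P) (closedBall 0 R₀ ×ˢ univ) :=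
    continuousOn_pathP (fun i => hf.cont_right (h ^ i)) (fun x => 0 + x)
      (continuous_const.add continuous_id).continuousOn hB hHc
      (fun x hx r => hHR (mem_closedBall_zero_iff.1 hx) r) _
  have hZc : ContinuousOn (uncurry Z) ((univ ×ˢ closedBall 0 R₀) ×ˢ univ) :=
    continuousOn_conj w₂ hPc hdilB
  have hZm : ∀ x ∈ closedBall (0 : E) R₀, ∀ τ, ∀ t ∈ Icc (0 : ℝ) 1,
      Z (τ, x) t ∈ closedBall (0 : E) R' := fun x hx τ t ht =>
    mem_closedBall_zero_iff.2 (hZ (mem_closedBall_zero_iff.1 hx) τ t ht).1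
  refine ⟨R₀, b, H, Z, hR₀0, by linarith [hR₀], hHc.mono (prod_mono subset_rfl (subset_univ _)),
    hH0, fun x _ => by rw [hH1, zero_add],
    fun x hx r _ => ⟨hHR (mem_closedBall_zero_iff.1 hx) r, fun k =>
      hBR (hfH (mem_closedBall_zero_iff.1 hx) r k) (by linarith)⟩,
    hZc.mono fun q hq => ⟨⟨mem_univ _, hq.1.2⟩, mem_univ _⟩, ?_, fun x hx τ t ht =>
      ⟨hZm x hx τ t ht, (hZ (mem_closedBall_zero_iff.1 hx) τ t ht).2.1,
        (hZ (mem_closedBall_zero_iff.1 hx) τ t ht).2.2.1⟩, ?_, fun x _ t => ?_⟩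
  · rintro ⟨τ, x⟩ ⟨-, hx⟩
    have hy' := hshrink (lam_mem τ) (mem_closedBall_zero_iff.1 hx)
    have hyB := mem_closedBall_zero_iff.2 hy'
    have hP0 := hPeq _ hyB 0 zero_le_one 0 0 ⟨le_rfl, zero_le_one⟩ (by simp)
    have hP1 := hPeq _ hyB 1 le_rfl (p ^ b * p) 0 ⟨le_rfl, zero_le_one⟩ (by simp)
    rw [hH0 _ hyB, zero_add] at hP0 hP1
    rw [pow_zero, hf.one _ (hBR hy' (by linarith [hR₀]))] at hP0
    rw [hN, hVfix (mem_closedBall_zero_iff.2 (hy'.trans (by linarith [hR₀]))) _ hb] at hP1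
    simp only [Z, hP0, hP1]
  · intro x hx t ht
    rw [zero_add]
    exact (hZ (mem_closedBall_zero_iff.1 hx) 0 t ht).2.2.2 (hlow (mem_closedBall_zero_iff.1 hx))
  · simp only [Z, lam_one, dil, inv_one, one_smul, add_sub_cancel, P]

/-- A fixed ball whose boundary passes through a limit of moved points. -/
theorem not_touching {f : K → E → E} {R : ℝ} (hf : IsLocalAction f 0 R) {p : ℕ} {h : K}
    (hpp : p.Prime) (C : Procyclic K p h) (hR : 0 < R) (h0 : ∀ k, f k 0 = 0)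
    (hper : ∃ V ∈ 𝓝 (1 : K), ∀ᶠ x in 𝓝 (0 : E), ∀ l ∈ V, f l x = x)
    (htame : Tame f 0 R (closedBall 0 (R / 2)))
    {s : ℝ} (hs : 0 < s) {e : E} (he : ‖e‖ = 1)
    (hfixball : ∀ x ∈ ball (-(s • e)) s, x ∈ closedBall 0 R → ∀ k, f k x = x)
    (hmoved : ∀ r > 0, ∃ x, ‖x‖ < r ∧ ∃ k, f k x ≠ x) : False := by
  obtain ⟨R₁, hR₁, hR₁R, hKR₁⟩ := exists_equi hf hR h0 hR
  set R' := min R₁ (min (R / 2) (s / 8))
  have hR'0 : 0 < R' := by positivity
  have hR'R₁ : R' ≤ R₁ := min_le_left _ _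
  have hR'R : R' ≤ R / 2 := (min_le_right _ _).trans (min_le_left _ _)
  have hR's : R' ≤ s / 8 := (min_le_right _ _).trans (min_le_right _ _)
  obtain ⟨R₀, b, H, Z, hR₀0, hR₀', hHc, hH0, hH1, hHmem, hZc, hZper, hZs, hZ0, hZ1⟩ :=
    exists_scaled hf C hR h0 hper hs he hfixball hR'0 hR'R hR's
  have hB : ∀ x ∈ closedBall (0 : E) R₀, (0 : E) + x ∈ closedBall (0 : E) R := fun x hx => by
    rw [zero_add]; exact closedBall_subset_closedBall (by linarith) hx
  set A := avgMap f (bend s e)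
  have hA := continuousOn_avgMap hf (continuous_bend s e)
  have hR'B : closedBall (0 : E) R' ⊆ closedBall 0 R :=
    closedBall_subset_closedBall (by linarith)
  have horb : ∀ x ∈ closedBall (0 : E) R', ∀ k, f k x ∈ closedBall (0 : E) R := fun x hx k =>
    mem_closedBall_zero_iff.2 (hKR₁ k x ((mem_closedBall_zero_iff.1 hx).trans hR'R₁)).le
  have hAfix : ∀ x ∈ closedBall (0 : E) R', ¬ Above s e x → A x = bend s e x := fun x hx hG =>
    avgMap_fixed (fixed_of_not_above h0 hfixball x (hR'B hx) hG)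
  have hApos : ∀ x ∈ closedBall (0 : E) R', Above s e x → 0 < ⟪e, A x⟫ := by
    intro x hx hG
    obtain ⟨l₀, -, hmin⟩ := isCompact_univ.exists_isMinOn (univ_nonempty (α := K))
      (continuous_const.inner ((continuous_bend s e).comp (hf.cont_left (hR'B hx)))).continuousOn
      (f := fun k => ⟪e, bend s e (f k x)⟫)
    have hpos : 0 < ⟪e, bend s e (f l₀ x)⟫ := by
      obtain ⟨h1, h2⟩ := above_map hf h0 hfixball l₀ x (hR'B hx) (horb x hx l₀) hG
      exact bend_pos hs he h1 h2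
    exact hpos.trans_le (avgMap_mem hf (continuous_bend s e) (hR'B hx)
      (convex_halfSpace_ge (innerSL ℝ e).toLinearMap.isLinear _)
      (isClosed_le continuous_const (continuous_const.inner continuous_id)) fun k =>
        hmin (mem_univ k))
  have hψ0 : ∀ x ∈ sphere (0 : E) R₀, bend s e x ≠ 0 := fun x hx h' => by
    have hxn := mem_sphere_zero_iff_norm.1 hx
    have := bend_inj hs he (by rw [hxn, norm_zero]; linarith) (h'.trans (bend_zero s e).symm)
    rw [this, norm_zero] at hxn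
    linarith
  have hseg : ∀ a a' : E, 0 < ⟪e, a⟫ → 0 < ⟪e, a'⟫ → ∀ r ∈ Icc (0 : ℝ) 1, a + r • (a' - a) ≠ 0 := by
    intro a a' ha ha' r hr h'
    have : 0 < ⟪e, a + r • (a' - a)⟫ :=
      (convex_halfSpace_gt (innerSL ℝ e).toLinearMap.isLinear 0).add_smul_sub_mem ha ha' hr
    rw [h', inner_zero_right] at this
    exact lt_irrefl _ this
  have hR₀R' : closedBall (0 : E) R₀ ⊆ closedBall 0 R' :=
    closedBall_subset_closedBall (by linarith)
  -- lower bounds on the sphere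
  obtain ⟨μ₁, hμ₁, hμ₁le⟩ := exists_min_norm
    (f := fun q : ((ℝ × E) × ℝ) × ℝ =>
      A q.1.1.2 + q.2 • (A (Z q.1.1 q.1.2) - A q.1.1.2))
    ((((isCompact_Icc (a := (0 : ℝ)) (b := 1)).prod (isCompact_sphere (0 : E) R₀)).prod
      (isCompact_Icc (a := (0 : ℝ)) (b := 1))).prod (isCompact_Icc (a := (0 : ℝ)) (b := 1)))
    (by
      have h1 : ContinuousOn (fun q : ((ℝ × E) × ℝ) × ℝ => A q.1.1.2)
          (((Icc 0 1 ×ˢ sphere (0 : E) R₀) ×ˢ Icc 0 1) ×ˢ Icc 0 1) :=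
        hA.comp (Continuous.continuousOn (by fun_prop)) fun q hq =>
          hR'B (hR₀R' (sphere_subset_closedBall hq.1.1.2))
      refine h1.add (continuousOn_snd.smul (ContinuousOn.sub ?_ h1))
      exact hA.comp (hZc.comp (f := fun q : ((ℝ × E) × ℝ) × ℝ => q.1) continuousOn_fst
        fun q hq => ⟨⟨hq.1.1.1, sphere_subset_closedBall hq.1.1.2⟩, hq.1.2⟩)
        fun q hq => hR'B (hZs _ (sphere_subset_closedBall hq.1.1.2) _ _ hq.1.2).1)
    (by
      rintro ⟨⟨⟨τ, x⟩, t⟩, r⟩ ⟨⟨⟨-, hx⟩, ht⟩, hr⟩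
      have hxB := sphere_subset_closedBall hx
      obtain ⟨hZm, hf1, hf2⟩ := hZs x hxB τ t ht
      by_cases hG : Above s e x
      · exact hseg _ _ (hApos x (hR₀R' hxB) hG) (hApos _ hZm (hf2 hG)) r hr
      · simp only [hf1 hG, sub_self, smul_zero, add_zero, hAfix x (hR₀R' hxB) hG]
        exact hψ0 x hx)
  obtain ⟨μ₂, hμ₂, hμ₂le⟩ := exists_min_norm
    (f := fun q : E × ℝ => A q.1 + q.2 • (bend s e q.1 - A q.1))
    ((isCompact_sphere (0 : E) R₀).prod (isCompact_Icc (a := (0 : ℝ)) (b := 1)))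
    (by
      have h1 : ContinuousOn (fun q : E × ℝ => A q.1) (sphere (0 : E) R₀ ×ˢ Icc 0 1) :=
        hA.comp continuousOn_fst fun q hq => hR'B (hR₀R' (sphere_subset_closedBall hq.1))
      exact h1.add (continuousOn_snd.smul
        (((continuous_bend s e).comp continuous_fst).continuousOn.sub h1)))
    (by
      rintro ⟨x, r⟩ ⟨hx, hr⟩
      have hxB := hR₀R' (sphere_subset_closedBall hx)
      by_cases hG : Above s e x
      · exact hseg _ _ (hApos x hxB hG) (bend_pos hs he hG.1 hG.2) r hr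
      · simp only [hAfix x hxB hG, sub_self, smul_zero, add_zero]
        exact hψ0 x hx)
  -- a moved point near the origin
  set μ := min μ₁ μ₂
  have hμ : 0 < μ := lt_min hμ₁ hμ₂
  obtain ⟨a, ha, k₀, hk₀⟩ := hmoved (min R₀ (μ / 8)) (by positivity)
  set F := {x ∈ closedBall (0 : E) R | ∀ k, f k x = x}
  have hFc : IsClosed F := by
    have : F = ⋂ k, closedBall 0 R ∩ (fun x => f k x - x) ⁻¹' {0} := by
      ext x; simp [F, sub_eq_zero, forall_and]
    rw [this]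
    exact isClosed_iInter fun k => ((hf.cont_right k).sub
      continuousOn_id).preimage_isClosed_of_isClosed isClosed_closedBall isClosed_singleton
  obtain ⟨ε, hε, hεsub⟩ := Metric.isOpen_iff.1
    ((isOpen_ball (x := (0 : E)) (ε := R₀)).sdiff hFc) a
    ⟨mem_ball_zero_iff.2 (ha.trans_le (min_le_left _ _)), fun h' => hk₀ (h'.2 k₀)⟩
  have hreg : ∀ x ∈ closedBall (0 : E) R', ∃ L : E ≃L[ℝ] E,
      HasStrictFDerivAt (bend s e) (L : E →L[ℝ] E) x := fun x hx =>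
    bend_regular hs he (by linarith [mem_closedBall_zero_iff.1 hx])
  have haR : a ∈ closedBall (0 : E) R' :=
    hR₀R' (ball_subset_closedBall (hεsub (mem_ball_self hε)).1)
  have himg : bend s e '' ball a ε ∈ 𝓝 (bend s e a) := by
    obtain ⟨L, hL⟩ := hreg a haR
    rw [← hL.map_nhds_eq_of_equiv]
    exact image_mem_map (ball_mem_nhds _ hε)
  obtain ⟨ε₁, hε₁, hε₁sub⟩ := Metric.nhds_basis_closedBall.mem_iff.1 himg
  set ε' := min ε₁ (μ / 8)
  have hε' : 0 < ε' := by positivity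
  have hU : closedBall (bend s e a) ε' ⊆ bend s e '' ball a ε :=
    (closedBall_subset_closedBall (min_le_left _ _)).trans hε₁sub
  have hinj : ∀ x ∈ closedBall (0 : E) R', ∀ z ∈ ball a ε, bend s e x = bend s e z → x = z :=
    fun x hx z hz h' => bend_inj hs he (by
      linarith [mem_closedBall_zero_iff.1 hx, mem_ball_zero_iff.1 (hεsub hz).1]) h'
  obtain ⟨y, hy, σ, hσ, hσeq, hσne⟩ := exists_good hf C.cont hpp.pos C.pow_p C.map_one C.map_mul
    (continuous_bend s e) (fun r => bend_lipschitz hs he r) (R' := R') (by linarith)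
    (htame.mono (closedBall_subset_closedBall hR'R))
    (U := ball (bend s e a) ε') isOpen_ball ⟨_, mem_ball_self hε'⟩ isBounded_ball
    (fun x hx hAx k l => sep_of_moved hf C (hR'B hx) (horb x hx) (by
      by_contra hfix
      push Not at hfix
      rw [avgMap_fixed hfix] at hAx
      obtain ⟨z, hz, hze⟩ := hU (closure_ball_subset_closedBall hAx)
      exact (hεsub (hinj x hx z hz hze.symm ▸ hz)).2 ⟨hR'B hx, hfix⟩))
  obtain ⟨x₀, hx₀, hx₀y⟩ := hU (ball_subset_closedBall hy)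
  have hx₀B : x₀ ∈ closedBall (0 : E) R₀ := ball_subset_closedBall (hεsub hx₀).1
  have hyμ : ‖y‖ < μ := by
    have h1 := norm_bend_le hs he (a := a)
      (by linarith [min_le_left R₀ (μ / 8)] : ‖a‖ ≤ s)
    have h2 : ‖y - bend s e a‖ < ε' := mem_ball_iff_norm.1 hy
    have h3 := norm_le_norm_add_norm_sub' y (bend s e a)
    linarith [min_le_right R₀ (μ / 8), min_le_right ε₁ (μ / 8)]
  have hpc : ContinuousOn (fun z => (A z - y, σ z)) (closedBall (0 : E) R) :=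
    (hA.sub continuousOn_const).prodMk hσ
  refine no_config hf hpp C (m := p ^ b) (pow_pos hpp.pos b) hR₀0 hB hA hσ
    (fun l x hx hlx => avgMap_invariant hf _ l hx hlx) hσeq (y := y)
    (fun x hx => hσne _ (by rw [zero_add]; exact hR₀R' hx))
    (ψ := fun x => bend s e x - y) (x₀ := x₀) ⟨((continuous_bend s e).sub
      continuous_const).continuousOn, fun x => ?_, fun x hx => ?_⟩ ?_ (H := H) hHc hH0 hH1
    (fun x hx r hr => ⟨(hHmem x hx r hr).1, fun i _ => (hHmem x hx r hr).2 _⟩)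
    (Q := fun q t => (A (Z q t) - y, σ (Z q t))) ?_ (fun q hq => by simp only [hZper q hq])
    ?_ (fun x hx t ht => by simp only [A, hZ0 x hx t ht])
    (fun x hx t ht => by simp only [A, hZ1 x hx t]) ?_
  · simp only [Finset.mem_singleton, sub_eq_zero]
    exact ⟨fun h' => h' ▸ ⟨hx₀B, hx₀y⟩, fun h' =>
      hinj x (hR₀R' h'.1) x₀ hx₀ (h'.2.trans hx₀y.symm)⟩
  · rw [Finset.mem_singleton] at hx
    obtain ⟨L, hL⟩ := hreg x (hx ▸ hR₀R' hx₀B)
    exact ⟨L, hL.hasFDerivAt.sub_const y⟩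
  · intro x hx r hr h'
    have h2 : μ₂ ≤ ‖A x + r • (bend s e x - A x)‖ := hμ₂le (x, r) ⟨hx, hr⟩
    simp only [zero_add] at h'
    have h3 : A x + r • (bend s e x - A x) = y := by
      rw [← sub_eq_zero, ← h']; module
    rw [h3] at h2
    linarith [min_le_right μ₁ μ₂]
  · exact hpc.comp hZc fun q hq => hR'B (hZs q.1.2 hq.1.2 q.1.1 q.2 hq.2).1
  · rintro ⟨τ, x⟩ ⟨-, hx⟩ t ht h'
    exact hσne _ (hZs x hx τ t ht).1 (sub_eq_zero.1 (congrArg Prod.fst h'))
      (congrArg Prod.snd h')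
  · intro x hx τ hτ t ht r hr h'
    have h2 : μ₁ ≤ ‖A x + r • (A (Z (τ, x) t) - A x)‖ :=
      hμ₁le (((τ, x), t), r) ⟨⟨⟨hτ, hx⟩, ht⟩, hr⟩
    simp only [zero_add] at h'
    have h3 : A x + r • (A (Z (τ, x) t) - A x) = y := by
      rw [← sub_eq_zero, ← h']; module
    rw [h3] at h2
    linarith [min_le_left μ₁ μ₂]

end

end Vale.Agent.P228.Frac
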