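import Vale.Agent.P228.Global
import Vale.Agent.P228.Frac.Touch

/-!
Critical Hölder actions in charts: the Baire category step and the finite germ bound.
-/

namespace Vale.Agent.P228.Frac

open Metric Set Function Filter Asymptotics
open scoped Topology

noncomputable section

/-- every element is `o(|z - x| ^ (n / (n + 2)))` at every point of `Λ` it keeps in `Λ`, read in
charts -/
def IsCriticalAction (E : Type*) [NormedAddCommGroup E] [NormedSpace ℝ E] (G M : Type*) [SMul G M]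
    [TopologicalSpace M] [ChartedSpace E M] (Λ : Set M) : Prop :=
  ∀ g : G, ∀ e ∈ atlas E M, ∀ x ∈ e.source, x ∈ Λ → g • x ∈ e.source → g • x ∈ Λ →
    (fun z => e (g • e.symm z) - e (g • x)) =o[𝓝 (e x)] fun z => ‖z - e x‖ ^ critExp E

variable {E : Type*} [NormedAddCommGroup E] [InnerProductSpace ℝ E] [FiniteDimensional ℝ E]
variable {M : Type*} [TopologicalSpace M] [ChartedSpace E M] {Λ : Set M}

/-- a chart of the atlas cut down to the open set `Λ` of regular points -/
def CutChart (Λ : Set M) (e : OpenPartialHomeomorph M E) : Prop :=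
  ∃ e₀ ∈ atlas E M, ∃ h : IsOpen Λ, e = e₀.restrOpen Λ h

omit [FiniteDimensional ℝ E] in
lemma CutChart.mem {e : OpenPartialHomeomorph M E} (he : CutChart Λ e) {y : M}
    (hy : y ∈ e.source) : y ∈ Λ := by
  obtain ⟨e₀, -, h, rfl⟩ := he
  exact hy.2

omit [FiniteDimensional ℝ E] in
lemma IsCriticalAction.subgroup {G : Type*} [Group G] [MulAction G M]
    (h : IsCriticalAction E G M Λ) (S : Subgroup G) : IsCriticalAction E S M Λ :=
  fun g => h g

omit [FiniteDimensional ℝ E] in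
lemma IsCriticalAction.smallOsc {G : Type*} [Group G] [MulAction G M]
    (h : IsCriticalAction E G M Λ) {e : OpenPartialHomeomorph M E} (he : CutChart Λ e) {z : E}
    (hz : z ∈ e.target) {g : G} (hg : g • e.symm z ∈ e.source) :
    SmallOsc (chartRep e g) z := by
  obtain ⟨e₀, he₀, hΛ, rfl⟩ := he
  have hm := (e₀.restrOpen Λ hΛ).map_target hz
  have := h g e₀ he₀ (e₀.symm z) hm.1 hm.2 hg.1 hg.2
  rw [show e₀ (e₀.symm z) = z from (e₀.restrOpen Λ hΛ).right_inv hz] at this
  exact this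

omit [FiniteDimensional ℝ E] in
lemma UnifSmall.congr {ι : Type*} {g g' : ι → E → E} {z : E} (h : UnifSmall g z)
    (he : ∀ᶠ w in 𝓝 z, ∀ i, g i w = g' i w) : UnifSmall g' z := by
  obtain ⟨⟨m, ρ, hρ, hb⟩, ho⟩ := h
  obtain ⟨ρ', hρ', he'⟩ := Metric.eventually_nhds_iff.1 he
  have hz := he.self_of_nhds
  refine ⟨⟨m, min ρ ρ', lt_min hρ hρ', fun i w hw => ?_⟩, fun i => ?_⟩
  · rw [← he' (hw.trans_le (min_le_right _ _)) i, ← hz i]
    exact hb i w (hw.trans_le (min_le_left _ _))
  · refine (ho i).congr' ?_ EventuallyEq.rfl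
    filter_upwards [he] with w hw
    rw [hw i, hz i]

variable {K : Type*} [CommGroup K] [TopologicalSpace K] [IsTopologicalGroup K] [CompactSpace K]
  [MulAction K M]

omit [FiniteDimensional ℝ E] in
/-- If an open subgroup fixes a neighbourhood of a point, any family of elements has finitely
many germs there. -/
lemma unifSmall_of_germ (hact : IsCriticalAction E K M Λ) {e : OpenPartialHomeomorph M E}
    (he : CutChart Λ e) {z : E} (hz : z ∈ e.target) {ι : Type*} (u : ι → K)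
    (hmaps : ∀ i, u i • e.symm z ∈ e.source) {T : Subgroup K} (hT : IsOpen (T : Set K))
    (hfix : ∀ᶠ y in 𝓝 (e.symm z), ∀ t ∈ T, t • y = y) :
    UnifSmall (fun i => chartRep e (u i)) z := by
  classical
  refine ⟨?_, fun i => hact.smallOsc he hz (hmaps i)⟩
  have : DiscreteTopology (K ⧸ T) := QuotientGroup.discreteTopology hT
  have : Finite (K ⧸ T) := finite_of_compact_of_discrete
  set Q := range fun i => (u i : K ⧸ T)
  choose i₀ hi₀ using fun q : Q => q.2
  have hev : ∀ᶠ w in 𝓝 z, (∀ q : Q,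
      ‖chartRep e (u (i₀ q)) w - chartRep e (u (i₀ q)) z‖ ≤ ‖w - z‖ ^ critExp E) ∧
      ∀ t ∈ T, t • e.symm w = e.symm w := by
    refine (eventually_all.2 fun q => ?_).and ((e.continuousAt_symm hz).eventually hfix)
    filter_upwards [(hact.smallOsc he hz (hmaps (i₀ q))).def one_pos] with w hw
    simpa [abs_of_nonneg (Real.rpow_nonneg (norm_nonneg (w - z)) (critExp E))] using hw
  obtain ⟨ρ, hρ, hρ'⟩ := Metric.eventually_nhds_iff.1 hev
  refine ⟨1, ρ, hρ, fun i w hw => ?_⟩
  let q : Q := ⟨(u i : K ⧸ T), mem_range_self i⟩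
  have hmem : (u (i₀ q))⁻¹ * u i ∈ T := QuotientGroup.eq.1 (hi₀ q)
  have hrep : ∀ v, dist v z < ρ → chartRep e (u i) v = chartRep e (u (i₀ q)) v := by
    intro v hv
    conv_lhs => rw [← mul_inv_cancel_left (u (i₀ q)) (u i)]
    simp only [chartRep]
    rw [mul_smul, (hρ' hv).2 _ hmem]
  simp only
  rw [hrep w hw, hrep z (by simpa using hρ), one_mul]
  exact (hρ' hw).1 q

omit [CompactSpace K] in
/-- an open subgroup of a procyclic group is procyclic -/
lemma exists_generator {h : K} (hd : Dense ((Subgroup.zpowers h : Subgroup K) : Set K))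
    (S : Subgroup K) (hS : IsOpen (S : Set K)) :
    ∃ h' : S, Dense ((Subgroup.zpowers h' : Subgroup S) : Set S) := by
  obtain ⟨m, hm⟩ := Int.subgroup_cyclic
    ({ carrier := {j : ℤ | h ^ j ∈ S}
       zero_mem' := by simp [S.one_mem]
       add_mem' := fun {i j} hi hj => by
         show h ^ (i + j) ∈ S
         rw [zpow_add]; exact S.mul_mem hi hj
       neg_mem' := fun {i} hi => by
         show h ^ (-i) ∈ S
         rw [zpow_neg]; exact S.inv_mem hi } : AddSubgroup ℤ)
  have hmS : h ^ m ∈ S := (hm ▸ AddSubgroup.mem_closure_singleton_self m :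
    m ∈ (_ : AddSubgroup ℤ))
  refine ⟨⟨h ^ m, hmS⟩, dense_iff_inter_open.2 fun O hO ⟨a, ha⟩ => ?_⟩
  have hO' : IsOpen (Subtype.val '' O : Set K) := hS.isOpenMap_subtype_val O hO
  obtain ⟨_, ⟨⟨s, hs⟩, hsO, rfl⟩, j, hj⟩ := hd.inter_open_nonempty _ hO' ⟨a, a, ha, rfl⟩
  have hjS : h ^ j ∈ S := by rw [show h ^ j = s from hj]; exact hs
  have hjm : j ∈ AddSubgroup.closure {m} := hm ▸ hjS
  obtain ⟨i, hi⟩ := AddSubgroup.mem_closure_singleton.1 hjm
  refine ⟨⟨s, hs⟩, hsO, i, Subtype.ext ?_⟩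
  change (((⟨h ^ m, hmS⟩ : S) ^ i : S) : K) = s
  rw [Subgroup.coe_zpow, show s = h ^ j from hj.symm, ← hi, smul_eq_mul, mul_comm i m, zpow_mul]

/-- Newman's lemma, also for the trivial group -/
theorem fixed_of_small' [MeasurableSpace E] [BorelSpace E] [T2Space K]
    [TotallyDisconnectedSpace K] {f : K → E → E} {c : E} {R δ : ℝ} (hf : IsLocalAction f c R)
    {p : ℕ} (hpp : p.Prime) (hp : PIndices K p) {h : K}
    (hd : Dense ((Subgroup.zpowers h : Subgroup K) : Set K)) (hR : 0 < R)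
    (hδ : ∀ k, ∀ x ∈ closedBall c R, dist (f k x) x ≤ δ) (hδR : 64 * δ ≤ R)
    (htame : Tame f c R (closedBall c (15 * R / 16))) :
    ∀ x ∈ ball c (R / 2), ∀ k, f k x = x := by
  intro x hx k
  rcases subsingleton_or_nontrivial K with hK | hK
  · rw [Subsingleton.elim k 1]
    exact hf.one x (mem_closedBall.2 (by linarith [mem_ball.1 hx]))
  · obtain ⟨C⟩ := exists_procyclic hpp hp hd
    exact fixed_of_small hf hpp C hR hδ hδR htame x hx k

variable [T2Space K] [TotallyDisconnectedSpace K] [ContinuousSMul K M]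
  [MeasurableSpace E] [BorelSpace E]

/-- Every point has a neighbourhood on which an open subgroup acts trivially. -/
theorem locally_finite_image (hact : IsCriticalAction E K M Λ) {p : ℕ} (hpp : p.Prime)
    (hp : PIndices K p) {h : K} (hd : Dense ((Subgroup.zpowers h : Subgroup K) : Set K)) (hΛ : IsOpen Λ) {x : M} (hxΛ : x ∈ Λ) :
    ∃ S : Subgroup K, IsOpen (S : Set K) ∧ ∀ᶠ y in 𝓝 x, ∀ s ∈ S, s • y = y := by
  set Ω := {x : M | ∃ S : Subgroup K, IsOpen (S : Set K) ∧ ∀ᶠ y in 𝓝 x, ∀ s ∈ S, s • y = y}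
  have hΩ : IsOpen Ω := isOpen_iff_mem_nhds.2 fun x ⟨S, hS, hx⟩ =>
    hx.eventually_nhds.mono fun y hy => ⟨S, hS, hy⟩
  have hinv : ∀ g : K, ∀ x ∈ Ωᶜ, g • x ∈ Ωᶜ := by
    rintro g x hx ⟨S, hS, hy⟩
    refine hx ⟨S, hS, ?_⟩
    filter_upwards [((continuous_const_smul g).tendsto x).eventually hy] with y hy s hs
    have := hy s hs
    rwa [smul_smul, mul_comm, ← smul_smul, smul_left_cancel_iff] at this
  by_contra hcon
  have hx : x ∈ Ωᶜ := hcon
  set e := (chartAt E x).restrOpen Λ hΛ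
  have he : CutChart Λ e := ⟨_, chart_mem_atlas E x, hΛ, rfl⟩
  have hxe : x ∈ e.source := ⟨mem_chart_source E x, hxΛ⟩
  set c := e x
  obtain ⟨R₂, hR₂, hsub⟩ := exists_closedBall_subset_target e (e.map_source hxe)
  set R := R₂ / 2 with hR_def
  have hR : 0 < R := by positivity
  obtain ⟨U, hU, hUo, hU1⟩ := _root_.mem_nhds_iff.1
    (eventually_small (G := K) hsub (show (0 : ℝ) < R / 4 by positivity))
  obtain ⟨N₀, hN₀⟩ := ProfiniteGrp.exist_openNormalSubgroup_sub_open_nhds_of_one hUo hU1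
  let N : Subgroup K := N₀.toSubgroup
  have hNo : IsOpen (N : Set K) := N₀.isOpen'
  have hN : ∀ g ∈ N, ∀ z ∈ closedBall c R₂,
      g • e.symm z ∈ e.source ∧ dist (chartRep e g z) z < R / 4 := fun g hg => hU (hN₀ hg)
  have hMB : MapsBall e (N : Set K) c R₂ := ⟨hsub, fun g hg z hz => (hN g hg z hz).1⟩
  let S' : Set E := ball c R ∩ (closedBall c R₂ ∩ e.symm ⁻¹' Ωᶜ)
  have hS' : IsLocallyClosed S' := isOpen_ball.isLocallyClosed.inter
    ((e.continuousOn_symm.mono hsub).preimage_isClosed_of_isClosed isClosed_closedBall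
      hΩ.isClosed_compl).isLocallyClosed
  have : LocallyCompactSpace S' := hS'.locallyCompactSpace
  have : LocallyCompactSpace ↥(N : Set K) := hNo.locallyCompactSpace
  have : Nonempty (↥(N : Set K) × S') := ⟨⟨1, N.one_mem⟩, ⟨c, mem_ball_self hR,
    mem_closedBall_self hR₂.le, by simpa [c, e.left_inv hxe] using hx⟩⟩
  let rad : ℕ → ℝ := fun m => R / (4 * ((m : ℝ) + 1))
  have hrad : ∀ m, 0 < rad m ∧ rad m ≤ R / 4 := fun m => ⟨by positivity, by
    simp only [rad]
    gcongr
    linarith [m.cast_nonneg (α := ℝ)]⟩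
  let T : ℕ → Set (↥(N : Set K) × S') := fun m => {q | ∀ v : E, ‖v‖ < rad m →
    ‖chartRep e (q.1 : K) (q.2 + v) - chartRep e (q.1 : K) q.2‖ ≤ ‖v‖ ^ critExp E}
  have hclosed : ∀ m, IsClosed (T m) := by
    intro m
    simp only [T]
    rw [show {q : ↥(N : Set K) × S' | _} = ⋂ (v : E) (_ : ‖v‖ < rad m), {q : ↥(N : Set K) × S' |
      ‖chartRep e (q.1 : K) (q.2 + v) - chartRep e (q.1 : K) q.2‖ ≤ ‖v‖ ^ critExp E} from by
      ext q; simp only [mem_iInter]; exact Iff.rfl]
    refine isClosed_iInter fun v => isClosed_iInter fun hv => ?_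
    have hval : ∀ v : E, ‖v‖ ≤ R / 4 →
        Continuous fun q : ↥(N : Set K) × S' => chartRep e (q.1 : K) ((q.2 : E) + v) :=
      fun v hv => (continuousOn_chartRep hMB).comp_continuous
        (f := fun q : ↥(N : Set K) × S' => ((q.1 : K), (q.2 : E) + v)) (by fun_prop)
        fun q => ⟨q.1.2, mem_closedBall.2 (by
          have := mem_ball.1 q.2.2.1
          have h2 : dist ((q.2 : E) + v) q.2 = ‖v‖ := by simp
          linarith [dist_triangle ((q.2 : E) + v) q.2 c])⟩
    have c2 := hval 0 (by simp; positivity)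
    simp only [add_zero] at c2
    exact isClosed_le ((hval v (hv.le.trans (hrad m).2)).sub c2).norm continuous_const
  have hcover : ⋃ m, T m = univ := by
    refine eq_univ_of_forall fun q => ?_
    have hzT : (q.2 : E) ∈ e.target := hsub q.2.2.2.1
    obtain ⟨δ, hδ, h₁⟩ := Metric.eventually_nhds_iff.1
      ((hact.smallOsc he hzT (hN q.1 q.1.2 q.2 q.2.2.2.1).1).def one_pos)
    obtain ⟨m, hm⟩ := exists_nat_gt (R / δ)
    refine mem_iUnion.2 ⟨m, fun v hv => ?_⟩
    have hvδ : ‖v‖ < δ := by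
      refine hv.trans ?_
      simp only [rad]
      rw [div_lt_iff₀ (by positivity)]
      rw [div_lt_iff₀ hδ] at hm
      nlinarith
    have h := h₁ (y := (q.2 : E) + v) (by rwa [dist_eq_norm, add_sub_cancel_left])
    simpa [abs_of_nonneg (Real.rpow_nonneg (norm_nonneg v) (critExp E))] using h
  obtain ⟨m, hm⟩ := nonempty_interior_of_iUnion_of_closed hclosed hcover
  obtain ⟨⟨g₀, z₀⟩, hq⟩ := hm
  obtain ⟨O₁, hO₁, O₂, hO₂, hOT⟩ := mem_nhds_prod_iff.1 (mem_interior_iff_mem_nhds.1 hq)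
  obtain ⟨O₁', hO₁', hO₁sub⟩ := (mem_nhds_subtype (N : Set K) g₀ O₁).1 hO₁
  obtain ⟨O₂', hO₂', hO₂sub⟩ := (mem_nhds_subtype S' z₀ O₂).1 hO₂
  obtain ⟨r, hr, hrsub⟩ :=
    Metric.nhds_basis_ball.mem_iff.1 (inter_mem hO₂' (isOpen_ball.mem_nhds z₀.2.1))
  -- the parametrisation and its image
  set g : K := (g₀ : K)
  have hgN : g ∈ N := g₀.2
  set θ : E → E := chartRep e g
  set z' := θ z₀
  have hrB : ball (z₀ : E) r ⊆ closedBall c R₂ := fun w hw => closedBall_subset_closedBall
    (by linarith) (ball_subset_closedBall (hrsub hw).2)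
  have hθc : ContinuousOn θ (ball (z₀ : E) r) :=
    (continuousOn_chartRep hMB).comp (continuousOn_const.prodMk continuousOn_id)
      fun w hw => ⟨hgN, hrB hw⟩
  have hgs : ∀ w ∈ closedBall c R₂, g • e.symm w ∈ e.source := fun w hw => (hN g hgN w hw).1
  have hback : chartRep e g⁻¹ z' = z₀ := by
    simp only [z', θ, chartRep, e.left_inv (hgs _ z₀.2.2.1), inv_smul_smul,
      e.right_inv (hsub z₀.2.2.1)]
  have hz'B : z' ∈ ball c R₂ := mem_ball.2 (by
    linarith [dist_triangle z' (z₀ : E) c, (hN g hgN z₀ z₀.2.2.1).2, mem_ball.1 z₀.2.1])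
  have hnb : ∀ᶠ y in 𝓝 z', y ∈ ball c R₂ ∧ chartRep e g⁻¹ y ∈ ball (z₀ : E) r := by
    refine (isOpen_ball.eventually_mem hz'B).and ?_
    have h1 : ContinuousAt (fun y => chartRep e g⁻¹ y) z' :=
      ((continuousOn_chartRep hMB).comp (continuousOn_const.prodMk continuousOn_id)
        fun y hy => ⟨N.inv_mem hgN, ball_subset_closedBall hy⟩).continuousAt
        (isOpen_ball.mem_nhds hz'B)
    exact h1.eventually (isOpen_ball.mem_nhds (by simp only [hback]; exact mem_ball_self hr))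
  obtain ⟨R', hR', hR'sub⟩ := Metric.nhds_basis_closedBall.mem_iff.1 hnb
  have hR'T : closedBall z' R' ⊆ e.target := fun y hy =>
    hsub (ball_subset_closedBall (hR'sub hy).1)
  obtain ⟨U', hU', hU'o, hU'1⟩ := _root_.mem_nhds_iff.1
    (inter_mem (inter_mem ((continuous_mul_const g).tendsto' 1 g (one_mul _) hO₁')
      (hNo.mem_nhds N.one_mem)) (eventually_small (G := K) hR'T
        (show (0 : ℝ) < R' / 64 by positivity)))
  obtain ⟨S₀, hS₀⟩ := ProfiniteGrp.exist_openNormalSubgroup_sub_open_nhds_of_one hU'o hU'1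
  let S : Subgroup K := S₀.toSubgroup
  have hSo : IsOpen (S : Set K) := S₀.isOpen'
  have : CompactSpace S := isCompact_iff_compactSpace.1
    (Subgroup.isClosed_of_isOpen S hSo).isCompact
  have hsm : ∀ s ∈ S, ∀ y ∈ closedBall z' R',
      s • e.symm y ∈ e.source ∧ dist (chartRep e s y) y < R' / 64 :=
    fun s hs => (hU' (hS₀ hs)).2
  have hsN : ∀ s ∈ S, s * g ∈ N ∧ s * g ∈ O₁' := fun s hs =>
    ⟨N.mul_mem (hU' (hS₀ hs)).1.2 hgN, (hU' (hS₀ hs)).1.1⟩
  have hmaps : MapsBall (G := S) e univ z' R' := ⟨hR'T, fun s _ y hy => (hsm s s.2 y hy).1⟩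
  set D := ball (z₀ : E) r ∩ θ ⁻¹' ball z' R'
  have htame : Tame (fun s : S => chartRep e s) z' R' (closedBall z' (15 * R' / 16)) := by
    refine ⟨θ, D, hθc.isOpen_inter_preimage isOpen_ball isOpen_ball,
      hθc.mono inter_subset_left, fun w hw => ball_subset_closedBall hw.2, fun y hy => ?_,
      fun z hz => ?_⟩
    · have hy' := hR'sub (closedBall_subset_closedBall (by linarith) hy)
      have hyT : y ∈ e.target := hsub (ball_subset_closedBall hy'.1)
      have hys : g⁻¹ • e.symm y ∈ e.source :=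
        (hN g⁻¹ (N.inv_mem hgN) y (ball_subset_closedBall hy'.1)).1
      have hval : θ (chartRep e g⁻¹ y) = y := by
        simp only [θ, chartRep, e.left_inv hys, smul_inv_smul, e.right_inv hyT]
      refine ⟨chartRep e g⁻¹ y, ⟨hy'.2, ?_⟩, hval⟩
      rw [mem_preimage, hval, mem_ball]
      linarith [mem_closedBall.1 hy]
    have hzB := hrB hz.1
    have hrep : ∀ᶠ w in 𝓝 z, ∀ s : S,
        chartRep e ((s : K) * g) w = chartRep (G := S) e s (θ w) := by
      filter_upwards [isOpen_ball.eventually_mem hz.1] with w hw s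
      simp only [θ, chartRep, e.left_inv (hgs w (hrB hw)), mul_smul]
      rfl
    refine UnifSmall.congr ?_ hrep
    have hmem : ∀ s : S, ((s : K) * g) • e.symm z ∈ e.source := fun s =>
      (hN _ (hsN s s.2).1 z hzB).1
    by_cases hzS : e.symm z ∈ Ωᶜ
    · refine ⟨⟨1, rad m, (hrad m).1, fun s w hw => ?_⟩, fun s =>
        hact.smallOsc he (hsub hzB) (hmem s)⟩
      have hzS' : z ∈ S' := ⟨(hrsub hz.1).2, hzB, hzS⟩
      have h := hOT (mk_mem_prod
        (hO₁sub (show (⟨(s : K) * g, (hsN s s.2).1⟩ : ↥(N : Set K)).1 ∈ O₁' from (hsN s s.2).2))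
        (hO₂sub (show (⟨z, hzS'⟩ : S').1 ∈ O₂' from (hrsub hz.1).1))) (w - z)
        (by rwa [← dist_eq_norm])
      simp only [add_sub_cancel] at h
      rw [one_mul]
      exact h
    · obtain ⟨T', hT', hfix⟩ := notMem_compl_iff.1 hzS
      exact unifSmall_of_germ hact he (hsub hzB) (fun s : S => (s : K) * g) hmem hT' hfix
  obtain ⟨h', hd'⟩ := exists_generator hd S hSo
  have hfix := fixed_of_small' (isLocalAction_chartRep hmaps) hpp
    (pIndices_openSubgroup hpp hp S hSo) hd' hR' (fun s y hy => (hsm s s.2 y hy).2.le)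
    (by linarith) htame
  have hz'T : z' ∈ e.target := hR'T (mem_closedBall_self hR'.le)
  refine hinv g _ z₀.2.2.2 (?_ : g • e.symm z₀ ∈ Ω)
  have e1 : g • e.symm (z₀ : E) = e.symm z' := by
    simp only [z', θ, chartRep, e.left_inv (hgs _ z₀.2.2.1)]
  rw [e1]
  refine ⟨S, hSo, ?_⟩
  have : e.symm '' ball z' (R' / 2) ∈ 𝓝 (e.symm z') :=
    e.symm.image_mem_nhds (by simpa using hz'T) (ball_mem_nhds _ (by positivity))
  filter_upwards [this] with y hy s hs
  obtain ⟨w, hw, rfl⟩ := hy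
  have h : e (s • e.symm w) = w := hfix w hw ⟨s, hs⟩
  have hwB : w ∈ closedBall z' R' :=
    ball_subset_closedBall (ball_subset_ball (by linarith) hw)
  exact e.injOn (hsm s hs w hwB).1 (e.map_target (hR'T hwB))
    (h.trans (e.right_inv (hR'T hwB)).symm)

end

end Vale.Agent.P228.Frac
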