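import Vale.Agent.P228.Regular

/-!
The degree of a continuous map on a closed ball which does not vanish on the sphere: it is
invariant under homotopies of the boundary values.
-/

namespace Vale.Agent.P228.Frac

open MeasureTheory Metric Set Function Filter
open scoped Topology

noncomputable section

variable {E : Type*} [NormedAddCommGroup E] [NormedSpace ℝ E] [FiniteDimensional ℝ E]
  [MeasurableSpace E] [BorelSpace E]

/-- `F` is continuous on the closed ball and `P` is its finite set of zeros there, all regular. -/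
structure Adm (c : E) (R : ℝ) (F : E → E) (P : Finset E) : Prop where
  cont : ContinuousOn F (closedBall c R)
  zeros : ∀ x, x ∈ P ↔ x ∈ closedBall c R ∧ F x = 0
  reg : ∀ x ∈ P, RegularAt F x

/-- the segment between the values of `f` and `g` avoids zero on the sphere -/
def SegNe (c : E) (R : ℝ) (f g : E → E) : Prop :=
  ∀ w ∈ sphere c R, ∀ t ∈ Icc (0 : ℝ) 1, (1 - t) • f w + t • g w ≠ 0

omit [FiniteDimensional ℝ E] [MeasurableSpace E] [BorelSpace E] in
lemma SegNe.symm {c : E} {R : ℝ} {f g : E → E} (h : SegNe c R f g) : SegNe c R g f :=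
  fun w hw t ht h0 => h w hw (1 - t) ⟨by linarith [ht.2], by linarith [ht.1]⟩ (by
    rw [sub_sub_cancel, add_comm]; exact h0)

lemma Adm.sum_eq {c : E} {R : ℝ} {F G : E → E} {P Q : Finset E} (hF : Adm c R F P)
    (hG : Adm c R G Q) (h : SegNe c R F G) : ∑ x ∈ P, dsign F x = ∑ x ∈ Q, dsign G x :=
  degree_compare hF.cont hG.cont P Q hF.zeros hG.zeros hF.reg hG.reg
    fun w hw t ht => h w (mem_sphere.2 hw) t ht

/-- a map close to given boundary values with finitely many regular zeros -/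
lemma exists_adm {c : E} {R : ℝ} {f : E → E} (hf : ContinuousOn f (sphere c R)) {ε : ℝ}
    (hε : 0 < ε) :
    ∃ F P, Adm c R F P ∧ ∀ w ∈ sphere c R, ‖F w - f w‖ ≤ ε := by
  obtain ⟨g, hg⟩ := (⟨_, hf.domRestrict⟩ : C(sphere c R, E)).exists_restrict_eq isClosed_sphere
  have hgf : ∀ z ∈ sphere c R, g z = f z := fun z hz =>
    congrArg (fun u : C(sphere c R, E) => u ⟨z, hz⟩) hg
  obtain ⟨G, hG, hGg, -⟩ := g.continuous.exists_contDiff_approx 1 (ε := fun _ => ε / 2)
    continuous_const fun _ => half_pos hε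
  let μ : Measure E := Measure.addHaar
  have hnull : μ (G '' {x | (fderiv ℝ G x).det = 0}) = 0 :=
    addHaar_image_eq_zero_of_det_fderivWithin_eq_zero μ
      (fun x _ => (hG.differentiable one_ne_zero x).hasFDerivAt.hasFDerivWithinAt) fun x hx => hx
  obtain ⟨v, hv, hvG⟩ : ∃ v ∈ ball (0 : E) (ε / 2), v ∉ G '' {x | (fderiv ℝ G x).det = 0} := by
    by_contra h
    push Not at h
    exact (measure_ball_pos μ (0 : E) (half_pos hε)).ne' (measure_mono_null h hnull)
  have hreg : ∀ x, G x - v = 0 → RegularAt (fun z => G z - v) x := fun x hx => by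
    have hdet : (fderiv ℝ G x).det ≠ 0 := fun h => hvG ⟨x, h, sub_eq_zero.1 hx⟩
    refine ⟨(fderiv ℝ G x).toContinuousLinearEquivOfDetNeZero hdet, ?_⟩
    simpa using ((hG.differentiable one_ne_zero x).hasFDerivAt).sub_const v
  have hc : ContinuousOn (fun z => G z - v) (closedBall c R) :=
    (hG.continuous.sub continuous_const).continuousOn
  obtain ⟨P, hP⟩ := (finite_regular_fiber hc 0 fun x _ hx => hreg x hx).exists_finset
  refine ⟨_, P, ⟨hc, hP, fun x hx => hreg x ((hP x).1 hx).2⟩, fun w hw => ?_⟩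
  calc ‖G w - v - f w‖ = ‖(G w - g w) - v‖ := by rw [hgf w hw]; congr 1; abel
    _ ≤ ‖G w - g w‖ + ‖v‖ := norm_sub_le _ _
    _ ≤ ε / 2 + ε / 2 := by
        rw [← dist_eq_norm]
        exact add_le_add (hGg w).le (mem_ball_zero_iff.1 hv).le
    _ = ε := by ring

omit [FiniteDimensional ℝ E] [MeasurableSpace E] [BorelSpace E] in
lemma SegNe.of_near {c : E} {R : ℝ} {f g f' g' : E → E} {m : ℝ}
    (h : ∀ w ∈ sphere c R, ∀ t ∈ Icc (0 : ℝ) 1, m < ‖(1 - t) • f w + t • g w‖)
    (hf : ∀ w ∈ sphere c R, ‖f' w - f w‖ ≤ m) (hg : ∀ w ∈ sphere c R, ‖g' w - g w‖ ≤ m) :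
    SegNe c R f' g' := fun w hw t ht h0 => by
  have h1 : ‖((1 - t) • f' w + t • g' w) - ((1 - t) • f w + t • g w)‖ ≤ m := by
    rw [add_sub_add_comm, ← smul_sub, ← smul_sub]
    refine (norm_add_le _ _).trans ?_
    rw [norm_smul, norm_smul, Real.norm_eq_abs, Real.norm_eq_abs,
      abs_of_nonneg (by linarith [ht.2]), abs_of_nonneg ht.1]
    nlinarith [mul_le_mul_of_nonneg_left (hf w hw) (show (0 : ℝ) ≤ 1 - t by linarith [ht.2]),
      mul_le_mul_of_nonneg_left (hg w hw) ht.1]
  rw [h0, zero_sub, norm_neg] at h1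
  exact absurd h1 (not_le.2 (h w hw t ht))

omit [MeasurableSpace E] [BorelSpace E] in
lemma exists_seg_margin {c : E} {R : ℝ} {f g : E → E} (hf : ContinuousOn f (sphere c R))
    (hg : ContinuousOn g (sphere c R)) (h : SegNe c R f g) :
    ∃ m > 0, ∀ w ∈ sphere c R, ∀ t ∈ Icc (0 : ℝ) 1, m < ‖(1 - t) • f w + t • g w‖ := by
  obtain ⟨m, hm, hle⟩ := ((isCompact_sphere c R).prod isCompact_Icc).exists_forall_le'
    (f := fun q : E × ℝ => ‖(1 - q.2) • f q.1 + q.2 • g q.1‖) (a := 0)
    ((((continuousOn_const.sub continuousOn_snd).smul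
      (hf.comp continuousOn_fst fun q hq => hq.1)).add (continuousOn_snd.smul
      (hg.comp continuousOn_fst fun q hq => hq.1))).norm)
    fun q hq => norm_pos_iff.2 (h q.1 hq.1 q.2 hq.2)
  exact ⟨m / 2, half_pos hm, fun w hw t ht => (half_lt_self hm).trans_le (hle (w, t) ⟨hw, ht⟩)⟩

/-- signed counts agree along a homotopy of the boundary values -/
theorem sum_eq_of_homotopy {c : E} {R : ℝ} {F G : E → E} {P Q : Finset E} (hF : Adm c R F P)
    (hG : Adm c R G Q) {H : ℝ → E → E}
    (hH : ContinuousOn (uncurry H) (Icc 0 1 ×ˢ sphere c R))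
    (hne : ∀ t ∈ Icc (0 : ℝ) 1, ∀ w ∈ sphere c R, H t w ≠ 0) (h0 : SegNe c R F (H 0))
    (h1 : SegNe c R (H 1) G) : ∑ x ∈ P, dsign F x = ∑ x ∈ Q, dsign G x := by
  have hsl : ∀ t ∈ Icc (0 : ℝ) 1, ContinuousOn (H t) (sphere c R) := fun t ht =>
    hH.comp (continuousOn_const.prodMk continuousOn_id) fun w hw => ⟨ht, hw⟩
  have hFs := hF.cont.mono sphere_subset_closedBall
  have hGs := hG.cont.mono sphere_subset_closedBall
  obtain ⟨m, hm, hle⟩ := (isCompact_Icc.prod (isCompact_sphere c R)).exists_forall_le'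
    (f := fun q : ℝ × E => ‖H q.1 q.2‖) (a := 0) hH.norm
    fun q hq => norm_pos_iff.2 (hne q.1 hq.1 q.2 hq.2)
  obtain ⟨m₀, hm₀, hle₀⟩ := exists_seg_margin hFs (hsl 0 (left_mem_Icc.2 zero_le_one)) h0
  obtain ⟨m₁, hm₁, hle₁⟩ := exists_seg_margin (hsl 1 (right_mem_Icc.2 zero_le_one)) hGs h1
  obtain ⟨δ, hδ, huc⟩ := Metric.uniformContinuousOn_iff_le.1
    ((isCompact_Icc.prod (isCompact_sphere c R)).uniformContinuousOn_of_continuous hH) (m / 4)
    (by positivity)
  obtain ⟨N, hN⟩ := exists_nat_one_div_lt hδ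
  set ε := min (m / 4) (min m₀ m₁)
  have hε : 0 < ε := by positivity
  let t : ℕ → ℝ := fun i => (i : ℝ) / ((N : ℝ) + 1)
  have ht : ∀ i ≤ N + 1, t i ∈ Icc (0 : ℝ) 1 := fun i hi =>
    ⟨by positivity, (div_le_one (by positivity)).2 (by exact_mod_cast hi)⟩
  choose! K J hK hKH using fun i (hi : i ≤ N + 1) => exists_adm (hsl (t i) (ht i hi)) hε
  have hstep : ∀ i ≤ N + 1, ∑ x ∈ P, dsign F x = ∑ x ∈ J i, dsign (K i) x := by
    intro i
    induction i with
    | zero =>
      intro h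
      refine hF.sum_eq (hK 0 h) (SegNe.of_near hle₀ (fun w _ => by simp [hm₀.le]) fun w hw => ?_)
      have h := hKH 0 h w hw
      simp only [t, Nat.cast_zero, zero_div] at h
      exact h.trans ((min_le_right _ _).trans (min_le_left _ _))
    | succ i ih =>
      intro h
      rw [ih (by omega)]
      refine (hK i (by omega)).sum_eq (hK (i + 1) h) (SegNe.of_near (f := H (t i)) (g := H (t i))
        (m := m / 2) (fun w hw s _ => ?_) (fun w hw => ?_) fun w hw => ?_)
      · rw [← add_smul, sub_add_cancel, one_smul]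
        exact (half_lt_self hm).trans_le (hle (t i, w) ⟨ht i (by omega), hw⟩)
      · exact (hKH i (by omega) w hw).trans ((min_le_left _ _).trans (by linarith))
      · have hd : ‖H (t (i + 1)) w - H (t i) w‖ ≤ m / 4 := by
          rw [← dist_eq_norm]
          refine huc (t (i + 1), w) ⟨ht _ h, hw⟩ (t i, w) ⟨ht _ (by omega), hw⟩ ?_
          rw [Prod.dist_eq, dist_self, max_eq_left dist_nonneg, Real.dist_eq]
          simp only [t, Nat.cast_add, Nat.cast_one, ← sub_div, add_sub_cancel_left]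
          rw [abs_of_pos (by positivity)]
          exact hN.le
        refine (norm_sub_le_norm_sub_add_norm_sub _ (H (t (i + 1)) w) _).trans ?_
        linarith [(hKH (i + 1) h w hw).trans (min_le_left (m / 4) _)]
  rw [hstep (N + 1) le_rfl]
  refine (hK _ le_rfl).sum_eq hG (SegNe.of_near hle₁ (fun w hw => ?_) fun w _ => by simp [hm₁.le])
  have h := hKH (N + 1) le_rfl w hw
  simp only [t, Nat.cast_add, Nat.cast_one] at h
  rw [div_self (by positivity)] at h
  exact h.trans ((min_le_right _ _).trans (min_le_right _ _))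

/-- the degree of boundary values without zero -/
def deg (c : E) (R : ℝ) (f : E → E) : ℤ :=
  haveI := Classical.propDecidable
    (∃ F, ∃ P, Adm c R F P ∧ SegNe c R F f)
  if h : ∃ F, ∃ P, Adm c R F P ∧ SegNe c R F f then
    ∑ x ∈ h.choose_spec.choose, dsign h.choose x else 0

lemma exists_adm_segNe {c : E} {R : ℝ} {f : E → E} (hf : ContinuousOn f (sphere c R))
    (hne : ∀ w ∈ sphere c R, f w ≠ 0) : ∃ F P, Adm c R F P ∧ SegNe c R F f := by
  have hs : SegNe c R f f := fun w hw t _ => by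
    rw [← add_smul, sub_add_cancel, one_smul]; exact hne w hw
  obtain ⟨m, hm, hle⟩ := exists_seg_margin hf hf hs
  obtain ⟨F, P, hF, hd⟩ := exists_adm hf hm
  exact ⟨F, P, hF, SegNe.of_near hle hd fun w _ => by simp [hm.le]⟩

lemma deg_eq {c : E} {R : ℝ} {f : E → E} (hf : ContinuousOn f (sphere c R))
    (hne : ∀ w ∈ sphere c R, f w ≠ 0) {F : E → E} {P : Finset E} (hF : Adm c R F P)
    (h : SegNe c R F f) : deg c R f = ∑ x ∈ P, dsign F x := by
  have hex : ∃ G, ∃ Q, Adm c R G Q ∧ SegNe c R G f := exists_adm_segNe hf hne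
  obtain ⟨hG, hGf⟩ := hex.choose_spec.choose_spec
  rw [deg, dif_pos hex]
  exact sum_eq_of_homotopy hG hF (H := fun _ => f)
    (hf.comp continuousOn_snd fun q hq => hq.2) (fun _ _ => hne) hGf h.symm

theorem deg_homotopy {c : E} {R : ℝ} {H : ℝ → E → E}
    (hH : ContinuousOn (uncurry H) (Icc 0 1 ×ˢ sphere c R))
    (hne : ∀ t ∈ Icc (0 : ℝ) 1, ∀ w ∈ sphere c R, H t w ≠ 0) :
    deg c R (H 0) = deg c R (H 1) := by
  have h0 := left_mem_Icc.2 (zero_le_one (α := ℝ))
  have h1 := right_mem_Icc.2 (zero_le_one (α := ℝ))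
  have hsl : ∀ t ∈ Icc (0 : ℝ) 1, ContinuousOn (H t) (sphere c R) := fun t ht =>
    hH.comp (continuousOn_const.prodMk continuousOn_id) fun w hw => ⟨ht, hw⟩
  obtain ⟨F, P, hF, hFs⟩ := exists_adm_segNe (hsl 0 h0) (hne 0 h0)
  obtain ⟨G, Q, hG, hGs⟩ := exists_adm_segNe (hsl 1 h1) (hne 1 h1)
  rw [deg_eq (hsl 0 h0) (hne 0 h0) hF hFs, deg_eq (hsl 1 h1) (hne 1 h1) hG hGs]
  exact sum_eq_of_homotopy hF hG hH hne hFs hGs.symm

theorem deg_eq_of_segNe {c : E} {R : ℝ} {f g : E → E} (hf : ContinuousOn f (sphere c R))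
    (hg : ContinuousOn g (sphere c R)) (h : SegNe c R f g) : deg c R f = deg c R g := by
  have hH : ContinuousOn (uncurry fun (t : ℝ) w => (1 - t) • f w + t • g w)
      (Icc 0 1 ×ˢ sphere c R) :=
    ((continuousOn_const.sub continuousOn_fst).smul (hf.comp continuousOn_snd fun q hq => hq.2)).add
      (continuousOn_fst.smul (hg.comp continuousOn_snd fun q hq => hq.2))
  have e := deg_homotopy hH fun t ht w hw => h w hw t ht
  simpa using e

lemma deg_eq_zero_of_ne {c : E} {R : ℝ} {f : E → E} (hf : ContinuousOn f (closedBall c R))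
    (hne : ∀ w ∈ closedBall c R, f w ≠ 0) : deg c R f = 0 := by
  have hA : Adm c R f ∅ := ⟨hf, fun x => by simpa using hne x, by simp⟩
  rw [deg_eq (hf.mono sphere_subset_closedBall) (fun w hw => hne w (sphere_subset_closedBall hw))
    hA fun w hw t _ => by
      rw [← add_smul, sub_add_cancel, one_smul]; exact hne w (sphere_subset_closedBall hw)]
  rfl

end

end Vale.Agent.P228.Frac
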