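import Vale.Agent.P228.Frac.Twist
import Vale.Agent.P228.Frac.Average

/-!
Newman's lemma: a tame pro-p action with small displacement fixes the half ball.
-/

namespace Vale.Agent.P228.Frac

open MeasureTheory Metric Set Function Filter
open scoped Topology

noncomputable section

variable {K : Type*} [CommGroup K] [TopologicalSpace K] [IsTopologicalGroup K] [CompactSpace K]
  [T2Space K]

/-- a character of order `p` which is nontrivial on every closed subgroup but the whole group -/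
structure Procyclic (K : Type*) [CommGroup K] [TopologicalSpace K] (p : ℕ) (h : K) where
  χ : K → ℂ
  cont : Continuous χ
  map_one : χ 1 = 1
  map_mul : ∀ k l, χ (k * l) = χ k * χ l
  pow_p : ∀ k, χ k ^ p = 1
  map_gen : χ h = circ ((1 : ℝ) / p)
  small : ∀ L : Subgroup K, IsClosed (L : Set K) → L ≠ ⊤ → ∀ l ∈ L, χ l = 1
  pow_small : ∀ V ∈ 𝓝 (1 : K), ∃ b : ℕ, h ^ p ^ (b + 1) ∈ V

lemma Procyclic.map_pow {p : ℕ} {h : K} (C : Procyclic K p h) (i : ℕ) :
    C.χ (h ^ i) = circ ((i : ℝ) / p) := by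
  induction i with
  | zero => simp [C.map_one, circ]
  | succ i ih =>
    rw [pow_succ, C.map_mul, ih, C.map_gen, ← circ_add]
    congr 1
    push_cast
    ring

theorem exists_procyclic [TotallyDisconnectedSpace K] [Nontrivial K] {p : ℕ} (hpp : p.Prime)
    (hp : PIndices K p) {h : K} (hd : Dense ((Subgroup.zpowers h : Subgroup K) : Set K)) :
    Nonempty (Procyclic K p h) := by
  classical
  have hmod : ∀ S : Subgroup K, IsOpen (S : Set K) → ∀ k : K, ∃ j : ℤ, (h ^ j)⁻¹ * k ∈ S := by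
    intro S hS k
    obtain ⟨y, hy, j, rfl⟩ := hd.inter_open_nonempty _
      (hS.preimage (by fun_prop : Continuous fun y : K => y⁻¹ * k)) ⟨k, by simp [S.one_mem]⟩
    exact ⟨j, hy⟩
  have htop : ∀ S : Subgroup K, IsOpen (S : Set K) → h ∈ S → S = ⊤ := fun S hS hh =>
    eq_top_iff.2 fun k _ => by
      obtain ⟨j, hj⟩ := hmod S hS k
      simpa using S.mul_mem (S.zpow_mem hh j) hj
  have hgen : ∀ S : Subgroup K, IsOpen (S : Set K) → ∀ j : ℤ, h ^ j ∈ S → ¬ (p : ℤ) ∣ j → S = ⊤ := by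
    intro S hS j hj hdvd
    obtain ⟨b, hb⟩ := hp S hS
    have hN : h ^ (p ^ b) ∈ S := hb ▸ Subgroup.pow_index_mem S h
    have hco : IsCoprime j ((p : ℤ) ^ b) :=
      ((Int.prime_iff_natAbs_prime.2 (by simpa using hpp)).coprime_iff_not_dvd.2 hdvd).symm.pow_right
    obtain ⟨u, v, huv⟩ := hco
    refine htop S hS ?_
    have e : h = (h ^ j) ^ u * (h ^ (p ^ b)) ^ v := by
      rw [← zpow_natCast h (p ^ b), ← zpow_mul, ← zpow_mul, ← zpow_add]
      conv_lhs => rw [← zpow_one h]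
      congr 1
      push_cast
      linarith
    rw [e]
    exact S.mul_mem (S.zpow_mem hj u) (S.zpow_mem hN v)
  obtain ⟨g, hg⟩ := exists_ne (1 : K)
  obtain ⟨N₀, hN₀⟩ := ProfiniteGrp.exist_openNormalSubgroup_sub_open_nhds_of_one
    (isOpen_compl_singleton (x := g)) (Ne.symm hg)
  set N : Subgroup K := N₀.toSubgroup
  have hNo : IsOpen (N : Set K) := N₀.isOpen'
  have hNtop : N ≠ ⊤ := fun e => hN₀ (show g ∈ N by rw [e]; trivial) rfl
  choose J hJ using hmod N hNo
  have hJdvd : ∀ k (j : ℤ), (h ^ j)⁻¹ * k ∈ N → (p : ℤ) ∣ j - J k := by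
    intro k j hj
    by_contra hc
    refine hNtop (hgen N hNo _ ?_ hc)
    have := N.mul_mem (hJ k) (N.inv_mem hj)
    rw [zpow_sub]
    convert this using 1
    simp [mul_comm, mul_assoc]
  let χ : K → ℂ := fun k => circ ((J k : ℝ) / p)
  have hp0 : (p : ℝ) ≠ 0 := Nat.cast_ne_zero.2 hpp.ne_zero
  have hval : ∀ k (j : ℤ), (h ^ j)⁻¹ * k ∈ N → χ k = circ ((j : ℝ) / p) := by
    intro k j hj
    obtain ⟨q, hq⟩ := hJdvd k j hj
    refine circ_eq_iff.2 ⟨-q, ?_⟩
    have : (j : ℝ) = J k + p * q := by exact_mod_cast (by linarith : j = J k + p * q)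
    rw [this]
    push_cast
    field_simp
    ring
  have hone : χ 1 = 1 := by
    rw [hval 1 0 (by simp [N.one_mem])]
    simp [circ]
  have hmul : ∀ k l, χ (k * l) = χ k * χ l := by
    intro k l
    rw [hval (k * l) (J k + J l) ?_, ← circ_add, Int.cast_add, add_div]
    have := N.mul_mem (hJ k) (hJ l)
    convert this using 1
    rw [zpow_add, mul_inv, mul_mul_mul_comm]
  refine ⟨⟨χ, ?_, hone, hmul, fun k => ?_, ?_, ?_, ?_⟩⟩
  · refine continuous_iff_continuousAt.2 fun k => ?_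
    refine (tendsto_const_nhds (x := χ k)).congr' ?_
    filter_upwards [(hNo.preimage (by fun_prop : Continuous fun y : K => k⁻¹ * y)).mem_nhds
      (by simp [N.one_mem])] with y hy
    refine (hval y (J k) ?_).symm
    have := N.mul_mem (hJ k) hy
    simpa [mul_assoc] using this
  · simp only [χ]
    rw [← circ_nat_mul, mul_div_cancel₀ _ hp0, circ_int]
  · rw [hval h 1 (by simp [N.one_mem])]
    simp
  · intro L hL hLtop l hl
    by_contra hχ
    refine hLtop (eq_top_iff.2 fun k _ => ?_)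
    suffices hh : h ∈ L from hd.closure_eq ▸ (closure_minimal
      ((Subgroup.zpowers_le (H := L)).2 hh) hL) <| mem_univ k
    rw [← SetLike.mem_coe, ← hL.closure_eq]
    refine mem_closure_iff.2 fun O hO hhO => ?_
    obtain ⟨M₀, hM₀⟩ := ProfiniteGrp.exist_openNormalSubgroup_sub_open_nhds_of_one
      (hO.preimage (by fun_prop : Continuous fun y : K => h * y)) (by simpa using hhO)
    set M : Subgroup K := M₀.toSubgroup ⊓ N
    have hMo : IsOpen (M : Set K) := IsOpen.inter M₀.isOpen' hNo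
    obtain ⟨j, hj⟩ := hmod M hMo l
    have hjp : ¬ (p : ℤ) ∣ j := by
      rintro ⟨q, rfl⟩
      refine hχ ?_
      rw [hval l _ (show _ ∈ N from hj.2), Int.cast_mul, Int.cast_natCast,
        mul_div_cancel_left₀ _ hp0, circ_int]
    obtain ⟨b, hb⟩ := hp M hMo
    have hN : h ^ (p ^ b) ∈ M := hb ▸ Subgroup.pow_index_mem M h
    have hco : IsCoprime j ((p : ℤ) ^ b) :=
      ((Int.prime_iff_natAbs_prime.2 (by simpa using hpp)).coprime_iff_not_dvd.2 hjp).symm.pow_right
    obtain ⟨u, v, huv⟩ := hco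
    refine ⟨l ^ u, ?_, L.zpow_mem hl u⟩
    have hM : h⁻¹ * l ^ u ∈ M := by
      have h1 := M.mul_mem (M.zpow_mem hj u) (M.inv_mem (M.zpow_mem hN v))
      convert h1 using 1
      have e : h = (h ^ j) ^ u * (h ^ (p ^ b)) ^ v := by
        rw [← zpow_natCast h (p ^ b), ← zpow_mul, ← zpow_mul, ← zpow_add]
        conv_lhs => rw [← zpow_one h]
        congr 1
        push_cast
        linarith
      conv_lhs => rw [e]
      rw [mul_zpow, inv_zpow, mul_inv]
      ac_rfl
    simpa using hM₀ hM.1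
  · intro V hV
    obtain ⟨O, hOV, hO, h1⟩ := _root_.mem_nhds_iff.1 hV
    obtain ⟨M, hM⟩ := ProfiniteGrp.exist_openNormalSubgroup_sub_open_nhds_of_one hO h1
    obtain ⟨b, hb⟩ := hp M.toSubgroup M.isOpen'
    refine ⟨b, hOV (hM ?_)⟩
    rw [pow_succ, pow_mul]
    exact M.toSubgroup.pow_mem (hb ▸ Subgroup.pow_index_mem M.toSubgroup h) p

variable {E : Type*} [NormedAddCommGroup E] [InnerProductSpace ℝ E] [FiniteDimensional ℝ E]
  [MeasurableSpace E] [BorelSpace E]

/-- the clamp to `[0, 1]` -/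
def clamp (s : ℝ) : ℝ := max 0 (min 1 s)

lemma clamp_mem (s : ℝ) : clamp s ∈ Icc (0 : ℝ) 1 :=
  ⟨le_max_left _ _, max_le zero_le_one (min_le_left _ _)⟩

lemma continuous_clamp : Continuous clamp :=
  continuous_const.max (continuous_const.min continuous_id)

/-- the path through `x, h x, …, h ^ N x` with segments translated from `H` -/
def pathP (F : ℕ → E → E) (H : E → ℝ → E) (x₀ : E → E) (N : ℕ) (x : E) (t : ℝ) : E :=
  x₀ x + ∑ i ∈ Finset.range N, (F i (H x (clamp (N * t - i))) - F i (x₀ x))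

omit [InnerProductSpace ℝ E] [FiniteDimensional ℝ E] [MeasurableSpace E] [BorelSpace E] in
lemma pathP_eq {F : ℕ → E → E} {H : E → ℝ → E} {x₀ : E → E} {N : ℕ} {x : E} {t s : ℝ} {i : ℕ}
    (hF0 : F 0 (x₀ x) = x₀ x) (hH0 : H x 0 = x₀ x)
    (hH1 : ∀ j, j < N → F j (H x 1) = F (j + 1) (x₀ x)) (ht : t ≤ 1) (hs : s ∈ Icc (0 : ℝ) 1)
    (he : (N : ℝ) * t = i + s) : pathP F H x₀ N x t = F i (H x s) := by
  have hiN : i ≤ N := by
    have : (i : ℝ) ≤ N := by nlinarith [hs.1, (N.cast_nonneg (α := ℝ))]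
    exact_mod_cast this
  have h1 : ∀ j, j < i → clamp (N * t - j) = 1 := fun j hj => by
    have : (j : ℝ) + 1 ≤ i := by exact_mod_cast hj
    simp only [clamp]
    rw [min_eq_left (by linarith [hs.1]), max_eq_right zero_le_one]
  have h2 : ∀ j, i < j → clamp (N * t - j) = 0 := fun j hj => by
    have : (i : ℝ) + 1 ≤ j := by exact_mod_cast hj
    simp only [clamp]
    exact max_eq_left ((min_le_right _ _).trans (by linarith [hs.2]))
  have hpre : ∑ j ∈ Finset.range i, (F j (H x (clamp (N * t - j))) - F j (x₀ x))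
      = F i (x₀ x) - x₀ x := by
    rw [Finset.sum_congr rfl fun j hj => by
      rw [h1 j (Finset.mem_range.1 hj), hH1 j ((Finset.mem_range.1 hj).trans_le hiN)],
      Finset.sum_range_sub (fun j => F j (x₀ x)), hF0]
  rcases eq_or_lt_of_le hiN with rfl | hlt
  · have hs0 : s = 0 := by nlinarith [hs.1, (i.cast_nonneg (α := ℝ))]
    rw [pathP, hpre, hs0, hH0]
    abel
  · rw [pathP, ← Finset.sum_range_add_sum_Ico _ hiN, hpre, Finset.sum_eq_sum_Ico_succ_bot hlt,
      Finset.sum_eq_zero fun j hj => by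
        rw [h2 j (Finset.mem_Ico.1 hj).1, hH0, sub_self],
      show (N : ℝ) * t - i = s by linarith]
    simp only [clamp, min_eq_right hs.2, max_eq_right hs.1]
    abel

lemma exists_floor {N : ℕ} {t : ℝ} (ht : t ∈ Icc (0 : ℝ) 1) :
    ∃ (i : ℕ) (s : ℝ), s ∈ Icc (0 : ℝ) 1 ∧ (N : ℝ) * t = i + s := by
  have h0 : 0 ≤ (N : ℝ) * t := mul_nonneg (Nat.cast_nonneg N) ht.1
  exact ⟨⌊(N : ℝ) * t⌋₊, (N : ℝ) * t - ⌊(N : ℝ) * t⌋₊,
    ⟨sub_nonneg.2 (Nat.floor_le h0), by linarith [Nat.lt_floor_add_one ((N : ℝ) * t)]⟩, by ring⟩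

/-- no invariant map of degree one has an equivariant companion without zeros on the fibre -/
theorem no_config {f : K → E → E} {c : E} {R : ℝ} (hf : IsLocalAction f c R) {p : ℕ} {h : K}
    (hpp : p.Prime) (C : Procyclic K p h) {m : ℕ} (hm : 0 < m) {R₀ : ℝ} (hR₀ : 0 < R₀)
    (hB : ∀ x ∈ closedBall (0 : E) R₀, c + x ∈ closedBall c R)
    {A : E → E} {σ : E → ℂ} {y : E} (hA : ContinuousOn A (closedBall c R))
    (hσ : ContinuousOn σ (closedBall c R))
    (hAinv : ∀ l, ∀ x ∈ closedBall c R, f l x ∈ closedBall c R → A (f l x) = A x)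
    (hσeq : ∀ l, ∀ x ∈ closedBall c R, f l x ∈ closedBall c R → σ (f l x) = C.χ l * σ x)
    (hne : ∀ x ∈ closedBall (0 : E) R₀, A (c + x) = y → σ (c + x) ≠ 0)
    {ψ : E → E} {x₀ : E} (hψ : Adm 0 R₀ ψ {x₀}) (hseg : SegNe 0 R₀ (fun x => A (c + x) - y) ψ)
    {H : E → ℝ → E} (hH : ContinuousOn (uncurry H) (closedBall 0 R₀ ×ˢ Icc 0 1))
    (hH0 : ∀ x ∈ closedBall (0 : E) R₀, H x 0 = c + x)
    (hH1 : ∀ x ∈ closedBall (0 : E) R₀, H x 1 = f h (c + x))
    (hHmem : ∀ x ∈ closedBall (0 : E) R₀, ∀ s ∈ Icc (0 : ℝ) 1,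
      H x s ∈ closedBall c R ∧ ∀ i ≤ m * p, f (h ^ i) (H x s) ∈ closedBall c R)
    {Q : ℝ × E → ℝ → E × ℂ}
    (hQ : ContinuousOn (uncurry Q) ((Icc 0 1 ×ˢ closedBall 0 R₀) ×ˢ Icc 0 1))
    (hQper : ∀ q ∈ Icc (0 : ℝ) 1 ×ˢ closedBall (0 : E) R₀, Q q 0 = Q q 1)
    (hQne : ∀ q ∈ Icc (0 : ℝ) 1 ×ˢ closedBall (0 : E) R₀, ∀ t ∈ Icc (0 : ℝ) 1, Q q t ≠ 0)
    (hQ0 : ∀ x ∈ closedBall 0 R₀, ∀ t ∈ Icc (0 : ℝ) 1,
      Q (0, x) t = (A (c + x) - y, σ (c + x)))
    (hQ1 : ∀ x ∈ closedBall 0 R₀, ∀ t ∈ Icc (0 : ℝ) 1, Q (1, x) t =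
      (A (pathP (fun i => f (h ^ i)) H (fun x => c + x) (m * p) x t) - y,
        σ (pathP (fun i => f (h ^ i)) H (fun x => c + x) (m * p) x t)))
    (hsph : ∀ x ∈ sphere 0 R₀, ∀ τ ∈ Icc (0 : ℝ) 1, ∀ t ∈ Icc (0 : ℝ) 1, ∀ r ∈ Icc (0 : ℝ) 1,
      (A (c + x) - y) + r • ((Q (τ, x) t).1 - (A (c + x) - y)) ≠ 0) : False := by
  let G : E → ℝ → E × ℂ := fun x s => (A (H x s) - y, circ (-s / p) * σ (H x s))
  have hsh : ContinuousOn (fun x => c + x) (closedBall (0 : E) R₀) :=
    (continuous_const.add continuous_id).continuousOn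
  have hp0 : (p : ℝ) ≠ 0 := Nat.cast_ne_zero.2 hpp.ne_zero
  refine no_twisted hR₀ hpp.two_le hm ((hA.comp hsh hB).sub continuousOn_const) (hσ.comp hsh hB)
    (fun x hx h0 => ?_) hψ hseg (G := G) ?_ (fun x hx => ?_) hQ hQper hQne hQ0 ?_ hsph
  · exact hne x hx (sub_eq_zero.1 (congrArg Prod.fst h0)) (congrArg Prod.snd h0)
  · have hm : MapsTo (uncurry H) (closedBall 0 R₀ ×ˢ Icc 0 1) (closedBall c R) :=
      fun q hq => (hHmem q.1 hq.1 q.2 hq.2).1
    exact ((hA.comp hH hm).sub continuousOn_const).prodMk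
      ((continuous_circ.comp (by fun_prop : Continuous fun q : E × ℝ => -q.2 / (p : ℝ))).continuousOn.mul
        (hσ.comp hH hm))
  · have hx1 : f h (c + x) ∈ closedBall c R := by
      rw [← hH1 x hx]; exact (hHmem x hx 1 (right_mem_Icc.2 zero_le_one)).1
    simp only [G, hH0 x hx, hH1 x hx, hAinv h _ (hB x hx) hx1, hσeq h _ (hB x hx) hx1, C.map_gen]
    rw [← mul_assoc, ← circ_add]
    simp [circ, neg_div]
  · intro x hx t ht s hs i he
    have hiN : i ≤ m * p := by
      have : (i : ℝ) ≤ (m * p : ℕ) := by nlinarith [hs.1, ht.2, ((m * p).cast_nonneg (α := ℝ))]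
      exact_mod_cast this
    obtain ⟨h1, h2⟩ := hHmem x hx s hs
    have hP : pathP (fun i => f (h ^ i)) H (fun x => c + x) (m * p) x t = f (h ^ i) (H x s) := by
      refine pathP_eq (F := fun i => f (h ^ i)) ?_ (hH0 x hx) (fun j hj => ?_) ht.2 hs he
      · simp only [pow_zero]; exact hf.one _ (hB x hx)
      · have hx1 := (hHmem x hx 1 (right_mem_Icc.2 zero_le_one)).1
        rw [hH1 x hx] at hx1 ⊢
        rw [← hf.mul _ h _ (hB x hx) hx1, ← pow_succ]
    rw [hQ1 x hx t ht, hP, hAinv _ _ h1 (h2 i hiN), hσeq _ _ h1 (h2 i hiN), C.map_pow]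
    refine Prod.ext rfl ?_
    simp only [G]
    rw [← mul_assoc, ← circ_add]
    congr 2
    push_cast at he
    field_simp
    linarith

omit [InnerProductSpace ℝ E] [FiniteDimensional ℝ E] [MeasurableSpace E] [BorelSpace E]
  [IsTopologicalGroup K] [T2Space K] [CompactSpace K] in
lemma eventually_disp [ProperSpace E] {f : K → E → E} {c : E} {R : ℝ} (hf : IsLocalAction f c R)
    {δ : ℝ} (hδ : 0 < δ) :
    ∀ᶠ k in 𝓝 (1 : K), ∀ x ∈ closedBall c R, dist (f k x) x < δ := by
  obtain ⟨O, hO, hO'⟩ := continuousOn_iff'.1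
    (continuous_dist.comp_continuousOn (hf.cont.prodMk continuousOn_snd)) (Iio δ) isOpen_Iio
  have hsub : ({1} : Set K) ×ˢ closedBall c R ⊆ O := by
    rintro ⟨k, x⟩ ⟨rfl : k = 1, hx⟩
    exact (hO'.subset ⟨show dist (uncurry f (1, x)) x ∈ Iio δ by simp [hf.one x hx, hδ],
      mem_univ _, hx⟩).1
  obtain ⟨u, v, hu, -, hu1, hv, huv⟩ :=
    generalized_tube_lemma isCompact_singleton (isCompact_closedBall c R) hO hsub
  filter_upwards [hu.mem_nhds (hu1 rfl)] with k hk x hx
  exact (hO'.superset (show (k, x) ∈ O ∩ univ ×ˢ closedBall c R from ⟨huv ⟨hk, hv hx⟩, mem_univ _, hx⟩)).1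

omit [FiniteDimensional ℝ E] [MeasurableSpace E] [BorelSpace E] [IsTopologicalGroup K]
  [CompactSpace K] [T2Space K] in
/-- the stabiliser of a point whose orbit stays in the domain -/
lemma sep_of_moved {f : K → E → E} {c : E} {R : ℝ} (hf : IsLocalAction f c R) {p : ℕ} {h : K}
    (C : Procyclic K p h) {x : E} (hx : x ∈ closedBall c R)
    (horb : ∀ k, f k x ∈ closedBall c R) (hmove : ∃ k, f k x ≠ x) {k l : K}
    (hkl : f k x = f l x) : C.χ k = C.χ l := by
  let L : Subgroup K :=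
    { carrier := {k | f k x = x}
      one_mem' := hf.one x hx
      mul_mem' := fun {a b} ha hb => by
        simp only [mem_setOf_eq] at ha hb ⊢
        rw [hf.mul a b x hx (horb b), hb, ha]
      inv_mem' := fun {a} ha => by
        simp only [mem_setOf_eq] at ha ⊢
        conv_lhs => rw [← ha]
        exact hf.inv_apply a hx (horb a) }
  have hL : IsClosed (L : Set K) := isClosed_eq (hf.cont_left hx) continuous_const
  have hLtop : L ≠ ⊤ := fun e => by
    obtain ⟨a, ha⟩ := hmove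
    exact ha (show a ∈ L by rw [e]; trivial)
  have hmem : l⁻¹ * k ∈ L := by
    show f (l⁻¹ * k) x = x
    rw [hf.mul _ _ x hx (horb k), hkl, hf.inv_apply l hx (horb l)]
  calc C.χ k = C.χ (l * (l⁻¹ * k)) := by rw [mul_inv_cancel_left]
    _ = C.χ l := by rw [C.map_mul, C.small L hL hLtop _ hmem, mul_one]

/-- Newman's lemma -/
theorem fixed_of_small {f : K → E → E} {c : E} {R δ : ℝ} (hf : IsLocalAction f c R) {p : ℕ}
    {h : K} (hpp : p.Prime) (C : Procyclic K p h) (hR : 0 < R)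
    (hδ : ∀ k, ∀ x ∈ closedBall c R, dist (f k x) x ≤ δ) (hδR : 64 * δ ≤ R)
    (htame : Tame f c R (closedBall c (15 * R / 16))) :
    ∀ x ∈ ball c (R / 2), ∀ k, f k x = x := by
  by_contra hcon
  push Not at hcon
  obtain ⟨a, ha, k₀, hk₀⟩ := hcon
  have hδ0 : 0 ≤ δ := dist_nonneg.trans (hδ 1 c (mem_closedBall_self hR.le))
  set R' := 15 * R / 16 with hR'
  have hR'R : R' ≤ R := by rw [hR']; linarith
  set F := {x ∈ closedBall c R | ∀ k, f k x = x}
  have hFc : IsClosed F := by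
    have : F = ⋂ k, closedBall c R ∩ (fun x => f k x - x) ⁻¹' {0} := by
      ext x; simp [F, sub_eq_zero, forall_and]
    rw [this]
    exact isClosed_iInter fun k => ((hf.cont_right k).sub
      continuousOn_id).preimage_isClosed_of_isClosed isClosed_closedBall isClosed_singleton
  obtain ⟨ε, hε, hεsub⟩ := Metric.nhds_basis_closedBall.mem_iff.1
    ((isOpen_ball.sdiff hFc).mem_nhds ⟨ha, fun h => hk₀ (h.2 k₀)⟩)
  set A := avgMap f id
  have hA := continuousOn_avgMap hf continuous_id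
  have hAd : ∀ x ∈ closedBall c R, dist (A x) x ≤ δ := fun x hx =>
    avgMap_mem hf continuous_id hx (convex_closedBall x δ) isClosed_closedBall fun k => hδ k x hx
  have horb : ∀ x ∈ closedBall c R', ∀ k, f k x ∈ closedBall c R := fun x hx k => mem_closedBall.2 (by
    linarith [dist_triangle (f k x) x c, hδ k x (closedBall_subset_closedBall hR'R hx),
      mem_closedBall.1 hx])
  obtain ⟨y, hy, σ, hσ, hσeq, hσne⟩ := exists_good hf C.cont hpp.pos C.pow_p C.map_one C.map_mul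
    continuous_id (fun r => ⟨1, LipschitzWith.id.lipschitzOnWith⟩) hR'R htame
    (U := ball a ε) isOpen_ball ⟨a, mem_ball_self hε⟩ isBounded_ball
    (fun x hx hAx k l => sep_of_moved hf C (closedBall_subset_closedBall hR'R hx) (horb x hx) (by
      by_contra hfix
      push Not at hfix
      rw [avgMap_fixed hfix] at hAx
      exact (hεsub (closure_ball_subset_closedBall hAx)).2
        ⟨closedBall_subset_closedBall hR'R hx, hfix⟩))
  have hyc : dist y c < R / 2 := mem_ball.1 (hεsub (ball_subset_closedBall hy)).1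
  -- the lower bound of the pair on the compact domain
  have hsub := closedBall_subset_closedBall (x := c) hR'R
  let pair : E → E × ℂ := fun z => (A z - y, σ z)
  have hpc : ContinuousOn pair (closedBall c R) := (hA.sub continuousOn_const).prodMk hσ
  obtain ⟨μ, hμ, hμle⟩ := exists_min_norm (isCompact_closedBall c R') (hpc.mono hsub)
    fun z hz h0 => hσne z hz (sub_eq_zero.1 (congrArg Prod.fst h0)) (congrArg Prod.snd h0)
  obtain ⟨δ₁, hδ₁, huc⟩ := Metric.uniformContinuousOn_iff.1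
    ((isCompact_closedBall c R).uniformContinuousOn_of_continuous hpc) μ hμ
  obtain ⟨b, hb⟩ := C.pow_small _ (eventually_disp hf hδ₁)
  have hN : p ^ b * p = p ^ (b + 1) := (pow_succ p b).symm
  set R₀ := 3 * R / 4 with hR₀
  have hB : ∀ x ∈ closedBall (0 : E) R₀, c + x ∈ closedBall c R := fun x hx => by
    rw [mem_closedBall, dist_eq_norm, add_sub_cancel_left]
    linarith [mem_closedBall_zero_iff.1 hx, hR₀]
  set H : E → ℝ → E := fun x s => (1 - s) • (c + x) + s • f h (c + x)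
  have hHd : ∀ x ∈ closedBall (0 : E) R₀, ∀ s ∈ Icc (0 : ℝ) 1,
      dist (H x s) (c + x) ≤ δ := fun x hx s hs =>
    mem_closedBall.1 ((convex_closedBall (c + x) δ) (mem_closedBall_self hδ0)
      (mem_closedBall.2 (hδ h _ (hB x hx))) (by linarith [hs.2]) hs.1 (by ring))
  have hxc : ∀ {x z : E}, x ∈ closedBall (0 : E) R₀ → ∀ {e : ℝ}, dist z (c + x) ≤ e →
      dist z c ≤ R₀ + e := by
    intro x z hx e he
    have : dist (c + x) c ≤ R₀ := by
      rw [dist_eq_norm, add_sub_cancel_left]; exact mem_closedBall_zero_iff.1 hx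
    linarith [dist_triangle z (c + x) c]
  set P := pathP (fun i => f (h ^ i)) H (fun x => c + x) (p ^ b * p)
  have hHR : ∀ x ∈ closedBall (0 : E) R₀, ∀ s ∈ Icc (0 : ℝ) 1, H x s ∈ closedBall c R :=
    fun x hx s hs => mem_closedBall.2 (by linarith [hxc hx (hHd x hx s hs), hR₀])
  have hfH : ∀ x ∈ closedBall (0 : E) R₀, ∀ s ∈ Icc (0 : ℝ) 1, ∀ k,
      dist (f k (H x s)) (c + x) ≤ 2 * δ := fun x hx s hs k => by
    linarith [dist_triangle (f k (H x s)) (H x s) (c + x), hδ k _ (hHR x hx s hs), hHd x hx s hs]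
  have hPd : ∀ x ∈ closedBall (0 : E) R₀, ∀ t ∈ Icc (0 : ℝ) 1,
      dist (P x t) (c + x) ≤ 2 * δ := by
    intro x hx t ht
    obtain ⟨i, s, hs, he⟩ := exists_floor (N := p ^ b * p) ht
    have hH1 : ∀ j, j < p ^ b * p → f (h ^ j) (H x 1) = f (h ^ (j + 1)) (c + x) := fun j _ => by
      have h1 : H x 1 = f h (c + x) := by simp [H]
      have h2 := hHR x hx 1 (right_mem_Icc.2 zero_le_one)
      rw [h1] at h2 ⊢
      rw [← hf.mul _ h _ (hB x hx) h2, ← pow_succ]
    simp only [P]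
    rw [pathP_eq (F := fun i => f (h ^ i)) (by simp [hf.one _ (hB x hx)]) (by simp [H]) hH1 ht.2
      hs he]
    exact hfH x hx s hs _
  have hHc : ContinuousOn (uncurry H) (closedBall 0 R₀ ×ˢ Icc 0 1) := by
    have h1 : ContinuousOn (fun q : E × ℝ => f h (c + q.1)) (closedBall 0 R₀ ×ˢ Icc 0 1) :=
      (hf.cont_right h).comp (continuous_const.add continuous_fst).continuousOn
        fun q hq => hB q.1 hq.1
    exact (((continuous_const.sub continuous_snd).continuousOn.smul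
      (continuous_const.add continuous_fst).continuousOn).add (continuousOn_snd.smul h1))
  have hPc : ContinuousOn (uncurry P) (closedBall 0 R₀ ×ˢ Icc 0 1) := by
    simp only [P, pathP, uncurry_def]
    refine (continuous_const.add continuous_fst).continuousOn.add
      (continuousOn_finsetSum _ fun i _ => ?_)
    refine ((hf.cont_right (h ^ i)).comp ?_ fun q hq => hHR q.1 hq.1 _ (clamp_mem _)).sub
      ((hf.cont_right (h ^ i)).comp (continuous_const.add continuous_fst).continuousOn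
        fun q hq => hB q.1 hq.1)
    exact hHc.comp (continuous_fst.prodMk (continuous_clamp.comp (by fun_prop))).continuousOn
      fun q hq => ⟨hq.1, clamp_mem _⟩
  -- the homotopy
  let w : E → E := fun x => c + x - f (h ^ (p ^ b * p)) (c + x)
  let Z : ℝ × E → ℝ → E := fun q t => (1 - min (2 * q.1) 1) • (c + q.2)
    + min (2 * q.1) 1 • (P q.2 t + t • w q.2)
  let Q : ℝ × E → ℝ → E × ℂ := fun q t =>
    (1 - max (2 * q.1 - 1) 0) • pair (Z q t) + max (2 * q.1 - 1) 0 • pair (P q.2 t)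
  have hw : ∀ x ∈ closedBall (0 : E) R₀, ‖w x‖ ≤ δ ∧ ‖w x‖ < δ₁ := fun x hx => by
    simp only [w]
    rw [← dist_eq_norm, dist_comm]
    exact ⟨hδ _ _ (hB x hx), by rw [hN]; exact hb _ (hB x hx)⟩
  have hτ : ∀ τ ∈ Icc (0 : ℝ) 1, min (2 * τ) 1 ∈ Icc (0 : ℝ) 1 ∧
      max (2 * τ - 1) 0 ∈ Icc (0 : ℝ) 1 := fun τ hτ =>
    ⟨⟨le_min (by linarith [hτ.1]) zero_le_one, min_le_right _ _⟩,
      ⟨le_max_right _ _, max_le (by linarith [hτ.2]) zero_le_one⟩⟩
  have hPw : ∀ x ∈ closedBall (0 : E) R₀, ∀ t ∈ Icc (0 : ℝ) 1,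
      dist (P x t + t • w x) (c + x) ≤ 3 * δ := fun x hx t ht => by
    have h2 : ‖t • w x‖ ≤ δ := by
      rw [norm_smul, Real.norm_eq_abs, abs_of_nonneg ht.1]
      exact (mul_le_of_le_one_left (norm_nonneg _) ht.2).trans (hw x hx).1
    have h3 := hPd x hx t ht
    rw [dist_eq_norm] at h3 ⊢
    calc ‖P x t + t • w x - (c + x)‖ = ‖(P x t - (c + x)) + t • w x‖ := by congr 1; abel
      _ ≤ 2 * δ + δ := (norm_add_le _ _).trans (add_le_add h3 h2)
      _ = 3 * δ := by ring
  have hZ : ∀ q ∈ Icc (0 : ℝ) 1 ×ˢ closedBall (0 : E) R₀, ∀ t ∈ Icc (0 : ℝ) 1,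
      dist (Z q t) (c + q.2) ≤ 3 * δ := fun q hq t ht => mem_closedBall.1
    ((convex_closedBall (c + q.2) (3 * δ)) (mem_closedBall_self (by linarith))
      (mem_closedBall.2 (hPw q.2 hq.2 t ht)) (by linarith [(hτ _ hq.1).1.2]) (hτ _ hq.1).1.1
      (by ring))
  have hmem' : ∀ {x z : E}, x ∈ closedBall (0 : E) R₀ → dist z (c + x) ≤ 3 * δ →
      z ∈ closedBall c R' := fun hx hz => mem_closedBall.2 (by
    linarith [hxc hx hz, hR₀, hR'])
  have hZm : ∀ q ∈ Icc (0 : ℝ) 1 ×ˢ closedBall (0 : E) R₀, ∀ t ∈ Icc (0 : ℝ) 1,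
      Z q t ∈ closedBall c R' := fun q hq t ht => hmem' hq.2 (hZ q hq t ht)
  have hPm : ∀ q ∈ Icc (0 : ℝ) 1 ×ˢ closedBall (0 : E) R₀, ∀ t ∈ Icc (0 : ℝ) 1,
      P q.2 t ∈ closedBall c R' := fun q hq t ht =>
    hmem' hq.2 (by linarith [hPd q.2 hq.2 t ht])
  refine no_config hf hpp C (m := p ^ b) (pow_pos hpp.pos b) (R₀ := R₀) (by rw [hR₀]; linarith)
    hB hA hσ (fun l x hx hlx => avgMap_invariant hf id l hx hlx) hσeq (y := y) (fun x hx => ?_)
    (ψ := fun x => c + x - y) (x₀ := y - c) ?_ ?_ (H := H) hHc (fun x hx => by simp [H])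
    (fun x hx => by simp [H]) (fun x hx s hs => ⟨hHR x hx s hs, fun i _ => ?_⟩)
    (Q := Q) ?_ ?_ ?_ ?_ ?_ ?_
  · exact hσne _ (hmem' hx (by simp; linarith))
  · refine ⟨(continuous_const.add continuous_id |>.sub continuous_const).continuousOn,
      fun x => ?_, fun x _ => ⟨ContinuousLinearEquiv.refl ℝ E,
        ((hasFDerivAt_id x).const_add c).sub_const y⟩⟩
    simp only [Finset.mem_singleton, mem_closedBall_zero_iff, sub_eq_zero, eq_sub_iff_add_eq']
    refine ⟨fun h => ⟨?_, h⟩, fun h => h.2⟩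
    rw [show x = y - c by rw [← h]; abel, ← dist_eq_norm]; linarith [hR₀]
  · intro x hx t ht h0
    have hxB := hB x (sphere_subset_closedBall hx)
    have h1 : dist ((1 - t) • (A (c + x) - y) + t • (c + x - y)) (c + x - y) ≤ δ :=
      mem_closedBall.1 ((convex_closedBall (c + x - y) δ)
        (mem_closedBall.2 (by rw [dist_sub_right]; exact hAd _ hxB)) (mem_closedBall_self hδ0)
        (by linarith [ht.2]) ht.1 (by ring))
    rw [h0, dist_zero_left, add_comm c, add_sub_assoc] at h1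
    have h2 : R₀ ≤ ‖x + (c - y)‖ + R / 2 := by
      have := norm_sub_le (x + (c - y)) (c - y)
      rw [add_sub_cancel_right, mem_sphere_zero_iff_norm.1 hx, ← dist_eq_norm, dist_comm] at this
      linarith
    linarith [hR₀]
  · exact mem_closedBall.2 (by linarith [hxc hx (hfH x hx s hs (h ^ i)), hR₀])
  · have hfst : ContinuousOn (fun q : (ℝ × E) × ℝ => P q.1.2 q.2)
        ((Icc 0 1 ×ˢ closedBall (0 : E) R₀) ×ˢ Icc 0 1) :=
      hPc.comp (f := fun q : (ℝ × E) × ℝ => (q.1.2, q.2))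
        ((continuous_snd.comp continuous_fst).prodMk continuous_snd).continuousOn
        fun q hq => ⟨hq.1.2, hq.2⟩
    have hwc : ContinuousOn (fun q : (ℝ × E) × ℝ => w q.1.2)
        ((Icc 0 1 ×ˢ closedBall (0 : E) R₀) ×ˢ Icc 0 1) :=
      (continuous_const.add (continuous_snd.comp continuous_fst)).continuousOn.sub
        ((hf.cont_right _).comp
          (continuous_const.add (continuous_snd.comp continuous_fst)).continuousOn
          fun q hq => hB _ hq.1.2)
    have hmin : ContinuousOn (fun q : (ℝ × E) × ℝ => min (2 * q.1.1) 1)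
        ((Icc 0 1 ×ˢ closedBall (0 : E) R₀) ×ˢ Icc 0 1) := Continuous.continuousOn (by fun_prop)
    have hmax : ContinuousOn (fun q : (ℝ × E) × ℝ => max (2 * q.1.1 - 1) 0)
        ((Icc 0 1 ×ˢ closedBall (0 : E) R₀) ×ˢ Icc 0 1) := Continuous.continuousOn (by fun_prop)
    have hZc := (((continuousOn_const (c := (1 : ℝ))).sub hmin).smul
      ((continuous_const (y := c)).add (continuous_snd.comp continuous_fst)).continuousOn).add
        (hmin.smul (hfst.add (continuousOn_snd.smul hwc)))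
    exact ((continuousOn_const.sub hmax).smul ((hpc.mono hsub).comp hZc
      fun q hq => hZm q.1 hq.1 q.2 hq.2)).add
        (hmax.smul ((hpc.mono hsub).comp hfst fun q hq => hPm q.1 hq.1 q.2 hq.2))
  · intro q hq
    have h0 := hB q.2 hq.2
    obtain ⟨hP0, hP1⟩ : P q.2 0 = c + q.2 ∧ P q.2 1 = f (h ^ (p ^ b * p)) (c + q.2) := by
      have hH1 : ∀ j, j < p ^ b * p → f (h ^ j) (H q.2 1) = f (h ^ (j + 1)) (c + q.2) :=
        fun j _ => by
          have h1 : H q.2 1 = f h (c + q.2) := by simp [H]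
          have h2 := hHR q.2 hq.2 1 (right_mem_Icc.2 zero_le_one)
          rw [h1] at h2 ⊢
          rw [← hf.mul _ h _ h0 h2, ← pow_succ]
      constructor <;> simp only [P]
      · rw [pathP_eq (F := fun i => f (h ^ i)) (by simp [hf.one _ h0]) (by simp [H]) hH1
          zero_le_one (i := 0) (s := 0) ⟨le_rfl, zero_le_one⟩ (by simp)]
        simp [H, hf.one _ h0]
      · rw [pathP_eq (F := fun i => f (h ^ i)) (by simp [hf.one _ h0]) (by simp [H]) hH1
          le_rfl (i := p ^ b * p) (s := 0) ⟨le_rfl, zero_le_one⟩ (by simp)]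
        simp [H]
    have hmemN : f (h ^ (p ^ b * p)) (c + q.2) ∈ closedBall c R :=
      hsub (hmem' hq.2 (by linarith [hδ (h ^ (p ^ b * p)) _ h0]))
    have hpair : pair (P q.2 1) = pair (P q.2 0) := by
      rw [hP0, hP1]
      simp only [pair, A, avgMap_invariant hf id _ h0 hmemN, hσeq _ _ h0 hmemN, C.map_pow]
      rw [Nat.cast_mul, mul_div_cancel_right₀ _ (Nat.cast_ne_zero.2 hpp.ne_zero),
        show ((p ^ b : ℕ) : ℝ) = ((p ^ b : ℕ) : ℤ) by push_cast; rfl, circ_int, one_mul]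
    have hZ01 : Z q 0 = Z q 1 := by
      simp only [Z, hP0, hP1, w, zero_smul, one_smul, add_zero, add_sub_cancel]
    simp only [Q, hZ01, hpair]
  · intro q hq t ht h0
    obtain ⟨hr1, hr2⟩ := hτ _ hq.1
    by_cases hcase : 2 * q.1 ≤ 1
    · simp only [Q, max_eq_right (show 2 * q.1 - 1 ≤ 0 by linarith), zero_smul, add_zero, sub_zero,
        one_smul] at h0
      have := hμle _ (hZm q hq t ht)
      change μ ≤ ‖pair (Z q t)‖ at this
      rw [h0, norm_zero] at this
      linarith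
    · push Not at hcase
      have hd : dist (P q.2 t) (Z q t) < δ₁ := by
        simp only [Z, min_eq_right hcase.le, sub_self, zero_smul, zero_add, one_smul]
        rw [dist_self_add_right, norm_smul, Real.norm_eq_abs, abs_of_nonneg ht.1]
        exact (mul_le_of_le_one_left (norm_nonneg _) ht.2).trans_lt (hw q.2 hq.2).2
      have h1 := huc _ (hsub (hPm q hq t ht)) _ (hsub (hZm q hq t ht)) hd
      have h2 : dist (Q q t) (pair (Z q t)) < μ :=
        mem_ball.1 ((convex_ball (pair (Z q t)) μ) (mem_ball_self hμ) (mem_ball.2 h1)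
          (by linarith [hr2.2]) hr2.1 (by ring))
      rw [show Q q t = 0 from h0, dist_zero_left] at h2
      exact absurd h2 (not_lt.2 (hμle _ (hZm q hq t ht)))
  · intro x hx t ht
    simp [Q, Z, pair, A]
  · intro x hx t ht
    norm_num [Q, Z, pair, P, A]
  · intro x hx τ hτ' t ht r hr h0
    have hxB := sphere_subset_closedBall hx
    obtain ⟨hr1, hr2⟩ := hτ τ hτ'
    have hA' : ∀ z : E, dist z (c + x) ≤ 3 * δ →
        A z - y ∈ closedBall (c + x - y) (4 * δ) := fun z hz => mem_closedBall.2 (by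
      rw [dist_sub_right]
      linarith [dist_triangle (A z) z (c + x), hAd z (hsub (hmem' hxB hz))])
    have hv : (Q (τ, x) t).1 ∈ closedBall (c + x - y) (4 * δ) := by
      simp only [Q, Prod.fst_add, Prod.smul_fst, pair]
      exact (convex_closedBall _ _) (hA' _ (hZ (τ, x) ⟨hτ', hxB⟩ t ht))
        (hA' _ (by linarith [hPd x hxB t ht])) (by linarith [hr2.2]) hr2.1 (by ring)
    have h1 : A (c + x) - y + r • ((Q (τ, x) t).1 - (A (c + x) - y))
        ∈ closedBall (c + x - y) (4 * δ) :=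
      (convex_closedBall _ _).add_smul_sub_mem
        (hA' _ (by simp; linarith)) hv hr
    rw [h0, mem_closedBall, dist_zero_left, add_comm c, add_sub_assoc] at h1
    have h2 : R₀ ≤ ‖x + (c - y)‖ + R / 2 := by
      have := norm_sub_le (x + (c - y)) (c - y)
      rw [add_sub_cancel_right, mem_sphere_zero_iff_norm.1 hx, ← dist_eq_norm, dist_comm] at this
      linarith
    linarith [hR₀]

end

end Vale.Agent.P228.Frac
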