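import Vale.Agent.P228.Frac.Branched

/-!
No twisted loop: the topological core of the argument. A one step loop twisted by a `p`-th root of
unity whose `m p` fold concatenation is null homotopic through pairs without common zero cannot
have a first component of degree one.
-/

namespace Vale.Agent.P228.Frac

open MeasureTheory Metric Set Function Filter
open scoped Topology Real

noncomputable section

/-- `t ↦ exp (2 π i t)` -/
def circ (t : ℝ) : ℂ := Complex.exp ((2 * π * t : ℝ) * Complex.I)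

lemma norm_circ (t : ℝ) : ‖circ t‖ = 1 := Complex.norm_exp_ofReal_mul_I _

lemma continuous_circ : Continuous circ := by unfold circ; fun_prop

lemma circ_add (s t : ℝ) : circ (s + t) = circ s * circ t := by
  rw [circ, circ, circ, ← Complex.exp_add]; push_cast; ring_nf

lemma circ_int (k : ℤ) : circ k = 1 := by
  rw [circ, Complex.exp_eq_one_iff]
  exact ⟨k, by push_cast; ring⟩

lemma circ_nat_mul (n : ℕ) (t : ℝ) : circ (n * t) = circ t ^ n := by
  rw [circ, circ, ← Complex.exp_nat_mul]; push_cast; ring_nf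

lemma circ_eq_iff {s t : ℝ} : circ s = circ t ↔ ∃ k : ℤ, s = t + k := by
  rw [circ, circ, Complex.exp_eq_exp_iff_exists_int]
  refine exists_congr fun k => ⟨fun h => ?_, fun h => by subst h; push_cast; ring⟩
  have h' := congrArg Complex.im h
  simp at h'
  have h2 : 2 * π * s = 2 * π * (t + k) := by linarith
  exact mul_left_cancel₀ (by positivity) h2

/-- the parameter in `[0, 1)` of a point of the circle -/
def circArg (v : ℂ) : ℝ := Int.fract (v.arg / (2 * π))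

lemma circ_circArg {v : ℂ} (hv : ‖v‖ = 1) : circ (circArg v) = v := by
  rw [circArg, Int.fract, sub_eq_add_neg, circ_add, ← Int.cast_neg, circ_int, mul_one, circ,
    mul_div_cancel₀ _ (by positivity)]
  simpa [hv] using Complex.norm_mul_exp_arg_mul_I v

lemma circArg_mem (v : ℂ) : circArg v ∈ Icc (0 : ℝ) 1 :=
  ⟨Int.fract_nonneg _, (Int.fract_lt_one _).le⟩

lemma circArg_circ {t : ℝ} (ht : t ∈ Icc (0 : ℝ) 1) :
    circArg (circ t) = t ∨ (circArg (circ t) = 0 ∧ t = 1) := by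
  obtain ⟨k, hk⟩ := circ_eq_iff.1 (circ_circArg (norm_circ t))
  have h0 := Int.fract_nonneg ((circ t).arg / (2 * π))
  have h1 := Int.fract_lt_one ((circ t).arg / (2 * π))
  change 0 ≤ circArg (circ t) at h0
  change circArg (circ t) < 1 at h1
  have hk1 : (-2 : ℝ) < k := by linarith [ht.2]
  have hk2 : (k : ℝ) < 1 := by linarith [ht.1]
  have : k = -1 ∨ k = 0 := by
    have a : (-2 : ℤ) < k := by exact_mod_cast hk1
    have b : k < (1 : ℤ) := by exact_mod_cast hk2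
    omega
  rcases this with rfl | rfl
  · push_cast at hk
    exact Or.inr ⟨by linarith [ht.2], by linarith [ht.2]⟩
  · exact Or.inl (by simpa using hk)

/-- periodic functions descend to the circle -/
lemma circle_lift {X Y : Type*} [TopologicalSpace X] [T2Space X] [TopologicalSpace Y] {S : Set X}
    (hS : IsCompact S) {F : X → ℝ → Y} (hF : ContinuousOn (uncurry F) (S ×ˢ Icc 0 1))
    (hper : ∀ x ∈ S, F x 0 = F x 1) :
    ContinuousOn (fun q : X × ℂ => F q.1 (circArg q.2)) (S ×ˢ sphere 0 1) ∧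
      ∀ x ∈ S, ∀ t ∈ Icc (0 : ℝ) 1, F x (circArg (circ t)) = F x t := by
  have heq : ∀ x ∈ S, ∀ t ∈ Icc (0 : ℝ) 1, F x (circArg (circ t)) = F x t := by
    intro x hx t ht
    rcases circArg_circ ht with h | ⟨h, h'⟩
    · rw [h]
    · rw [h, h', hper x hx]
  refine ⟨continuousOn_iff_isClosed.2 fun C hC => ?_, heq⟩
  refine ⟨(fun q : X × ℝ => (q.1, circ q.2)) '' (S ×ˢ Icc 0 1 ∩ uncurry F ⁻¹' C), ?_, ?_⟩
  · refine (IsCompact.image ?_ (continuous_fst.prodMk (continuous_circ.comp continuous_snd))).isClosed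
    obtain ⟨u, hu, hu'⟩ := continuousOn_iff_isClosed.1 hF C hC
    rw [inter_comm, hu', inter_comm]
    exact (hS.prod isCompact_Icc).inter_right hu
  · ext ⟨x, v⟩
    constructor
    · rintro ⟨hC', hx, hv⟩
      exact ⟨⟨(x, circArg v), ⟨⟨hx, circArg_mem v⟩, hC'⟩, by
        simp [circ_circArg (mem_sphere_zero_iff_norm.1 hv)]⟩, hx, hv⟩
    · rintro ⟨⟨⟨x', t⟩, ⟨⟨hx', ht⟩, hC'⟩, he⟩, hxv⟩
      simp only [Prod.mk.injEq] at he
      obtain ⟨rfl, rfl⟩ := he
      refine ⟨?_, hxv⟩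
      simpa [heq x' hx' t ht] using hC'

/-- the radial extension of a function on the circle, with value `c x` at the centre -/
def radial {X F : Type*} [AddCommGroup F] [Module ℝ F] (g : X × ℂ → F) (c : X → F)
    (q : X × ℂ) : F :=
  c q.1 + ‖q.2‖ • (g (q.1, ‖q.2‖⁻¹ • q.2) - c q.1)

lemma radial_sphere {X F : Type*} [AddCommGroup F] [Module ℝ F] (g : X × ℂ → F) (c : X → F)
    {q : X × ℂ} (hq : ‖q.2‖ = 1) : radial g c q = g q := by
  simp [radial, hq]

lemma norm_unit {w : ℂ} (hw : w ≠ 0) : ‖‖w‖⁻¹ • w‖ = 1 := by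
  rw [norm_smul, norm_inv, norm_norm, inv_mul_cancel₀ (norm_ne_zero_iff.2 hw)]

lemma continuousOn_radial {X F : Type*} [TopologicalSpace X] [T2Space X] [NormedAddCommGroup F]
    [NormedSpace ℝ F] {S : Set X} (hS : IsCompact S) {g : X × ℂ → F} {c : X → F}
    (hg : ContinuousOn g (S ×ˢ sphere 0 1)) (hc : ContinuousOn c S) :
    ContinuousOn (radial g c) (S ×ˢ closedBall 0 1) := by
  obtain ⟨C₁, hC₁⟩ := ((hS.prod (isCompact_sphere (0 : ℂ) 1)).image_of_continuousOn hg).isBounded.exists_norm_le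
  obtain ⟨C₂, hC₂⟩ := (hS.image_of_continuousOn hc).isBounded.exists_norm_le
  rintro ⟨x, w⟩ ⟨hx, hw⟩
  have hcf : ContinuousWithinAt (fun q : X × ℂ => c q.1) (S ×ˢ closedBall (0 : ℂ) 1) (x, w) :=
    (hc.comp continuousOn_fst fun q hq => hq.1) (x, w) ⟨hx, hw⟩
  by_cases h0 : w = 0
  · subst h0
    have hlim : Tendsto (fun q : X × ℂ => ‖q.2‖ • (g (q.1, ‖q.2‖⁻¹ • q.2) - c q.1))
        (𝓝[S ×ˢ closedBall (0 : ℂ) 1] (x, 0)) (𝓝 0) := by
      refine squeeze_zero_norm' (a := fun q : X × ℂ => ‖q.2‖ * (C₁ + C₂)) ?_ ?_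
      · filter_upwards [self_mem_nhdsWithin] with q hq
        rw [norm_smul, norm_norm]
        by_cases hq0 : q.2 = 0
        · simp [hq0]
        · refine mul_le_mul_of_nonneg_left ((norm_sub_le _ _).trans (add_le_add ?_ ?_))
            (norm_nonneg _)
          · exact hC₁ _ ⟨(q.1, ‖q.2‖⁻¹ • q.2), ⟨hq.1, mem_sphere_zero_iff_norm.2 (norm_unit hq0)⟩, rfl⟩
          · exact hC₂ _ ⟨_, hq.1, rfl⟩
      · have : Continuous fun q : X × ℂ => ‖q.2‖ * (C₁ + C₂) := by fun_prop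
        exact (this.tendsto' (x, 0) 0 (by simp)).mono_left nhdsWithin_le_nhds
    have h := hcf.tendsto.add hlim
    unfold ContinuousWithinAt
    rw [show radial g c (x, (0 : ℂ)) = c x + 0 by simp [radial]]
    exact h
  · have hopen : S ×ˢ closedBall (0 : ℂ) 1 ∩ {q | q.2 ≠ 0}
        ∈ 𝓝[S ×ˢ closedBall (0 : ℂ) 1] (x, w) :=
      inter_mem_nhdsWithin _ ((isOpen_ne.preimage continuous_snd).mem_nhds h0)
    refine ContinuousWithinAt.mono_of_mem_nhdsWithin ?_ hopen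
    have hu : ContinuousOn (fun q : X × ℂ => (q.1, ‖q.2‖⁻¹ • q.2))
        (S ×ˢ closedBall (0 : ℂ) 1 ∩ {q | q.2 ≠ 0}) :=
      continuousOn_fst.prodMk ((continuousOn_snd.norm.inv₀ fun q hq =>
        norm_ne_zero_iff.2 hq.2).smul continuousOn_snd)
    have hgc := hg.comp hu fun q hq => ⟨hq.1.1, mem_sphere_zero_iff_norm.2 (norm_unit hq.2)⟩
    have hcc : ContinuousOn (fun q : X × ℂ => c q.1)
        (S ×ˢ closedBall (0 : ℂ) 1 ∩ {q | q.2 ≠ 0}) :=
      hc.comp continuousOn_fst fun q hq => hq.1.1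
    exact (hcc.add (continuousOn_snd.norm.smul (hgc.sub hcc))) (x, w) ⟨⟨hx, hw⟩, h0⟩

variable {E : Type*} [NormedAddCommGroup E] [NormedSpace ℝ E] [FiniteDimensional ℝ E]
  [MeasurableSpace E] [BorelSpace E]

theorem no_twisted {R : ℝ} (hR : 0 < R) {p m : ℕ} (hp : 2 ≤ p) (hm : 0 < m)
    {α : E → E} {β : E → ℂ} (hα : ContinuousOn α (closedBall 0 R))
    (hβ : ContinuousOn β (closedBall 0 R)) (hαβ : ∀ x ∈ closedBall 0 R, (α x, β x) ≠ 0)
    {ψ : E → E} {x₀ : E} (hψ : Adm 0 R ψ {x₀}) (hseg₀ : SegNe 0 R α ψ)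
    {G : E → ℝ → E × ℂ} (hG : ContinuousOn (uncurry G) (closedBall 0 R ×ˢ Icc 0 1))
    (hGper : ∀ x ∈ closedBall 0 R, G x 0 = G x 1)
    {Q : ℝ × E → ℝ → E × ℂ}
    (hQ : ContinuousOn (uncurry Q) ((Icc 0 1 ×ˢ closedBall 0 R) ×ˢ Icc 0 1))
    (hQper : ∀ q ∈ Icc (0 : ℝ) 1 ×ˢ closedBall (0 : E) R, Q q 0 = Q q 1)
    (hQne : ∀ q ∈ Icc (0 : ℝ) 1 ×ˢ closedBall (0 : E) R, ∀ t ∈ Icc (0 : ℝ) 1, Q q t ≠ 0)
    (hQ0 : ∀ x ∈ closedBall 0 R, ∀ t ∈ Icc (0 : ℝ) 1, Q (0, x) t = (α x, β x))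
    (hQ1 : ∀ x ∈ closedBall 0 R, ∀ t ∈ Icc (0 : ℝ) 1, ∀ s ∈ Icc (0 : ℝ) 1, ∀ i : ℕ,
      ((m * p : ℕ) : ℝ) * t = i + s → Q (1, x) t = ((G x s).1, circ (m * t) * (G x s).2))
    (hsph : ∀ x ∈ sphere 0 R, ∀ τ ∈ Icc (0 : ℝ) 1, ∀ t ∈ Icc (0 : ℝ) 1, ∀ r ∈ Icc (0 : ℝ) 1,
      α x + r • ((Q (τ, x) t).1 - α x) ≠ 0) :
    False := by
  have hB := isCompact_closedBall (0 : E) R
  have hS := (isCompact_Icc (a := (0 : ℝ)) (b := 1)).prod hB
  have hN : 0 < m * p := Nat.mul_pos hm (by omega)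
  have hNR : (0 : ℝ) < (m * p : ℕ) := Nat.cast_pos.2 hN
  obtain ⟨hGc, hGeq⟩ := circle_lift hB hG hGper
  obtain ⟨hQc, hQeq⟩ := circle_lift hS hQ hQper
  set g : E × ℂ → E × ℂ := fun q => G q.1 (circArg q.2)
  set c : E → E × ℂ := fun x => (α x, β x)
  have hcc : ContinuousOn c (closedBall 0 R) := hα.prodMk hβ
  obtain ⟨A, hA⟩ := (⟨_, (continuousOn_radial hB hGc hcc).domRestrict⟩ :
      C(closedBall (0 : E) R ×ˢ closedBall (0 : ℂ) 1, E × ℂ)).exists_restrict_eq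
    (isClosed_closedBall.prod isClosed_closedBall)
  have hAeq : ∀ q ∈ closedBall (0 : E) R ×ˢ closedBall (0 : ℂ) 1, A q = radial g c q :=
    fun q hq => congrArg (fun u : C(closedBall (0 : E) R ×ˢ closedBall (0 : ℂ) 1, E × ℂ) =>
      u ⟨q, hq⟩) hA
  have hpow : ∀ t : ℝ, circ t ^ (m * p) = circ ((m * p : ℕ) * t) := fun t =>
    (circ_nat_mul _ t).symm
  -- decomposition `N t = i + s`
  have hdec : ∀ t ∈ Icc (0 : ℝ) 1, ∃ (i : ℕ) (s : ℝ), s ∈ Icc (0 : ℝ) 1 ∧
      ((m * p : ℕ) : ℝ) * t = i + s ∧ circ t ^ (m * p) = circ s := by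
    intro t ht
    have h0 : 0 ≤ ((m * p : ℕ) : ℝ) * t := mul_nonneg hNR.le ht.1
    refine ⟨⌊((m * p : ℕ) : ℝ) * t⌋₊, ((m * p : ℕ) : ℝ) * t - ⌊((m * p : ℕ) : ℝ) * t⌋₊,
      ⟨sub_nonneg.2 (Nat.floor_le h0), by linarith [Nat.lt_floor_add_one (((m * p : ℕ) : ℝ) * t)]⟩,
      by ring, ?_⟩
    rw [hpow, circ_eq_iff]
    exact ⟨⌊((m * p : ℕ) : ℝ) * t⌋₊, by push_cast; ring⟩
  have hgab : ∀ x ∈ closedBall (0 : E) R, ∀ u : ℂ, ‖u‖ = 1 → g (x, u) ≠ 0 ∧
      ∃ t ∈ Icc (0 : ℝ) 1, (g (x, u)).1 = (Q (1, x) t).1 := by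
    intro x hx u hu
    have hs := circArg_mem u
    have ht : circArg u / (m * p : ℕ) ∈ Icc (0 : ℝ) 1 :=
      ⟨div_nonneg hs.1 hNR.le, (div_le_one hNR).2 (hs.2.trans (by exact_mod_cast hN))⟩
    have h := hQ1 x hx _ ht _ hs 0 (by rw [mul_div_cancel₀ _ hNR.ne']; simp)
    refine ⟨fun h0 => hQne (1, x) ⟨right_mem_Icc.2 zero_le_one, hx⟩ _ ht ?_, _, ht, by rw [h]⟩
    rw [h]
    change G x (circArg u) = 0 at h0
    simp [h0]
  have hBsph := sphere_subset_closedBall (x := (0 : E)) (ε := R)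
  obtain ⟨s, hs⟩ := deg_branched hR (p := p) (by omega) hm (a := fun q => (A q).1)
    (b := fun q => (A q).2) (continuous_fst.comp A.continuous) (continuous_snd.comp A.continuous)
    (fun x hx u hu => by
      rw [Prod.mk.eta, hAeq _ ⟨hx, mem_closedBall_zero_iff.2 hu.le⟩, radial_sphere _ _ hu]
      exact (hgab x hx u hu).1)
    (fun x hx u hu => by
      rw [hAeq _ ⟨hBsph hx, mem_closedBall_zero_iff.2 hu⟩]
      simp only [radial, c, Prod.fst_add, Prod.smul_fst, Prod.fst_sub]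
      by_cases hu0 : u = 0
      · simpa [hu0] using hsph x hx 0 (left_mem_Icc.2 zero_le_one) 0
          (left_mem_Icc.2 zero_le_one) 0 (left_mem_Icc.2 zero_le_one)
      · obtain ⟨t, ht, he⟩ := (hgab x (hBsph hx) _ (norm_unit hu0)).2
        rw [he]
        exact hsph x hx 1 (right_mem_Icc.2 zero_le_one) t ht _ ⟨norm_nonneg _, hu⟩)
  have ha0 : ∀ x ∈ closedBall (0 : E) R, (A (x, 0)).1 = α x := fun x hx => by
    rw [hAeq _ ⟨hx, mem_closedBall_self zero_le_one⟩]; simp [radial, c]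
  have hψne : ∀ x ∈ sphere (0 : E) R, ψ x ≠ 0 := fun x hx => by
    simpa using hseg₀ x hx 1 (right_mem_Icc.2 zero_le_one)
  have hψs : deg (0 : E) R (fun x => (A (x, 0)).1) = dsign ψ x₀ := by
    have hc1 : ContinuousOn (fun x => (A (x, 0)).1) (sphere (0 : E) R) :=
      (continuous_fst.comp (A.continuous.comp
        (continuous_id.prodMk continuous_const))).continuousOn
    rw [deg_eq_of_segNe hc1 (hψ.cont.mono hBsph) fun x hx t ht => by
        simp only [ha0 x (hBsph hx)]; exact hseg₀ x hx t ht,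
      deg_eq (hψ.cont.mono hBsph) hψne hψ fun x hx t _ => by
        rw [← add_smul, sub_add_cancel, one_smul]; exact hψne x hx,
      Finset.sum_singleton]
  -- the radial homotopy
  set q' : (ℝ × E) × ℂ → E × ℂ := fun q => Q q.1 (circArg q.2)
  let H : ℝ → E × ℂ → E × ℂ := fun τ q =>
    radial q' (fun r => c r.2) ((τ, q.1), wpow R 1 q.2)
  have hsphere : ∀ q ∈ sphere (0 : E × ℂ) R, q.1 ∈ closedBall (0 : E) R ∧ ‖wpow R 1 q.2‖ ≤ 1 ∧
      (q.1 ∈ sphere (0 : E) R ∨ ‖wpow R 1 q.2‖ = 1) := fun q hq => by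
    obtain ⟨h1, h2, h3⟩ := sphere_prod_cases hq
    rw [norm_wpow hR, pow_one]
    exact ⟨h1, (div_le_one hR).2 h2, h3.imp_right fun h => by rw [h, div_self hR.ne']⟩
  have hHc : ContinuousOn (uncurry H) (Icc 0 1 ×ˢ sphere (0 : E × ℂ) R) := by
    have h1 : ContinuousOn (fun q : ℝ × (E × ℂ) => ((q.1, q.2.1), wpow R 1 q.2.2))
        (Icc 0 1 ×ˢ sphere (0 : E × ℂ) R) := by
      unfold wpow
      fun_prop
    exact (continuousOn_radial hS hQc (hcc.comp continuousOn_snd fun r hr => hr.2)).comp h1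
      fun q hq => ⟨⟨hq.1, (hsphere q.2 hq.2).1⟩, mem_closedBall_zero_iff.2 (hsphere q.2 hq.2).2.1⟩
  have hH1 : ∀ τ ∈ Icc (0 : ℝ) 1, ∀ q ∈ sphere (0 : E × ℂ) R, H τ q ≠ 0 := by
    intro τ hτ q hq h
    obtain ⟨hx, hw, hcase⟩ := hsphere q hq
    rcases hcase with hxS | hwS
    · have h1 := congrArg Prod.fst h
      simp only [H, radial, c, Prod.fst_add, Prod.smul_fst, Prod.fst_sub, Prod.fst_zero] at h1
      by_cases h0 : wpow R 1 q.2 = 0
      · simp only [h0, norm_zero, zero_smul, add_zero] at h1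
        simpa [h1] using hsph q.1 hxS τ hτ 0 (left_mem_Icc.2 zero_le_one) 0
          (left_mem_Icc.2 zero_le_one)
      · exact hsph q.1 hxS τ hτ _ (circArg_mem _) _ ⟨norm_nonneg _, hw⟩ h1
    · simp only [H, radial_sphere q' (fun r => c r.2) (q := ((τ, q.1), wpow R 1 q.2)) hwS] at h
      exact hQne (τ, q.1) ⟨hτ, hx⟩ _ (circArg_mem _) h
  have hdeg0 : deg (0 : E × ℂ) R (H 0) = 0 := by
    have hc' : ContinuousOn (fun q : E × ℂ => c q.1) (closedBall (0 : E × ℂ) R) :=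
      hcc.comp continuousOn_fst fun q hq => mem_closedBall_zero_iff.2
        ((norm_fst_le q).trans (mem_closedBall_zero_iff.1 hq))
    have hsl : ContinuousOn (H 0) (sphere (0 : E × ℂ) R) :=
      hHc.comp (continuousOn_const.prodMk continuousOn_id) fun q hq =>
        ⟨left_mem_Icc.2 zero_le_one, hq⟩
    rw [deg_eq_of_segNe hsl (hc'.mono sphere_subset_closedBall), deg_eq_zero_of_ne hc']
    · intro q hq
      exact hαβ q.1 (mem_closedBall_zero_iff.2
        ((norm_fst_le q).trans (mem_closedBall_zero_iff.1 hq)))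
    · intro q hq t _ h
      obtain ⟨hx, hw, -⟩ := hsphere q hq
      have he : H 0 q = c q.1 := by
        simp only [H, radial, q', hQ0 q.1 hx _ (circArg_mem _)]
        simp [c]
      rw [he, ← add_smul, sub_add_cancel, one_smul] at h
      exact hαβ q.1 hx h
  have hdeg1 : deg (0 : E × ℂ) R (H 1)
      = deg (0 : E × ℂ) R (branched R m p (fun q => (A q).1) (fun q => (A q).2)) := by
    refine deg_eq_of_segNe ?_ ?_ fun q hq r hr h => ?_
    · exact hHc.comp (continuousOn_const.prodMk continuousOn_id) fun q hq =>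
        ⟨right_mem_Icc.2 zero_le_one, hq⟩
    · refine Continuous.continuousOn ?_
      unfold branched wpow
      fun_prop
    obtain ⟨hx, hw, hcase⟩ := hsphere q hq
    set w := wpow R 1 q.2 with hwdef
    have hwN : wpow R (m * p) q.2 = w ^ (m * p) := by simp [w, wpow]
    have hwm : wpow R m q.2 = w ^ m := by simp [w, wpow]
    have hwN1 : ‖w ^ (m * p)‖ ≤ 1 := by rw [norm_pow]; exact pow_le_one₀ (norm_nonneg _) hw
    have hkey : ∀ u : ℂ, ‖u‖ = 1 → ∃ s ∈ Icc (0 : ℝ) 1, g (q.1, u ^ (m * p)) = G q.1 s ∧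
        q' ((1, q.1), u) = ((G q.1 s).1, u ^ m * (G q.1 s).2) := by
      intro u hu
      obtain ⟨i, s, hs, he, hc⟩ := hdec _ (circArg_mem u)
      refine ⟨s, hs, ?_, ?_⟩
      · simp only [g]
        rw [← circ_circArg hu, hc, hGeq q.1 hx s hs]
      · simp only [q']
        rw [hQ1 q.1 hx _ (circArg_mem u) s hs i he, circ_nat_mul, circ_circArg hu]
    simp only [branched, hwN, hwm, hAeq (q.1, w ^ (m * p)) ⟨hx, mem_closedBall_zero_iff.2 hwN1⟩] at h
    simp only [H, ← hwdef] at h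
    by_cases hw0 : w = 0
    · rcases hcase with hxS | hwS
      · have h1 := congrArg Prod.fst h
        simp [radial, hw0, zero_pow hN.ne', c] at h1
        rw [← add_smul, sub_add_cancel, one_smul] at h1
        simpa [h1] using hsph q.1 hxS 0 (left_mem_Icc.2 zero_le_one) 0
          (left_mem_Icc.2 zero_le_one) 0 (left_mem_Icc.2 zero_le_one)
      · rw [hw0, norm_zero] at hwS; exact zero_ne_one hwS
    obtain ⟨s, hs, hg, hq'⟩ := hkey _ (norm_unit hw0)
    rcases hcase with hxS | hwS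
    · have h1 := congrArg Prod.fst h
      have hdir : ‖w ^ (m * p)‖⁻¹ • w ^ (m * p) = (‖w‖⁻¹ • w) ^ (m * p) := by
        rw [norm_pow, smul_pow, inv_pow]
      simp only [radial, c, hdir, hg, hq', Prod.fst_add, Prod.smul_fst, Prod.fst_sub,
        Prod.fst_zero] at h1
      refine hsph q.1 hxS 1 (right_mem_Icc.2 zero_le_one) (circArg (‖w‖⁻¹ • w)) (circArg_mem _)
        ((1 - r) * ‖w‖ + r * ‖w ^ (m * p)‖) ?_ ?_
      · exact (convex_Icc (0 : ℝ) 1) ⟨norm_nonneg w, hw⟩ ⟨norm_nonneg _, hwN1⟩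
          (by linarith [hr.2]) hr.1 (by ring)
      · have hq1 := congrArg Prod.fst hq'
        simp only [q'] at hq1
        rw [hq1, ← h1]
        module
    · have hu : ‖w‖⁻¹ • w = w := by simp [hwS]
      rw [hu] at hg hq'
      rw [radial_sphere q' (fun r => c r.2) (q := ((1, q.1), w)) hwS,
        radial_sphere g c (q := (q.1, w ^ (m * p))) (by simp [hwS]), hq', hg,
        ← add_smul, sub_add_cancel, one_smul] at h
      have h' := hQne (1, q.1) ⟨right_mem_Icc.2 zero_le_one, hx⟩ (circArg w) (circArg_mem _)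
      exact h' (hq'.trans h)
  have hfin := deg_homotopy hHc hH1
  rw [hdeg0, hdeg1, hs, hψs] at hfin
  have h2 : (m : ℤ) * (dsign ψ x₀ + (p : ℤ) * s) = 0 := by push_cast at hfin; linarith
  have h3 := (mul_eq_zero.1 h2).resolve_left (by exact_mod_cast hm.ne')
  have h4 : (p : ℤ) ∣ 1 := by
    refine ⟨-s * dsign ψ x₀, ?_⟩
    unfold dsign at h3 ⊢
    split_ifs at h3 ⊢ <;> linarith
  have h5 := Int.le_of_dvd one_pos h4
  omega

end

end Vale.Agent.P228.Frac
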